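import Crest.Agent.N218.In.Kit
import Crest.Agent.N218.Tr.Cyc

/-!
# Row 218, block INST (helper89): the formal axioms of the embedded invariant
-/

set_option autoImplicit false
set_option linter.unusedVariables false
set_option linter.unusedSectionVars false

open Set Topology Module unitInterval

noncomputable section

namespace Crest.Agent.N218.In

open K Pm

namespace Gn

theorem pe_of {a b : QQ} (s : ℤˣ) (h : a = s • b) : Pe a b := by
  rcases Int.units_eq_one_or s with rfl | rfl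
  · exact .inl (h.trans (one_smul _ _))
  · exact .inr (h.trans (by rw [Units.neg_smul, one_smul]))

theorem pe_two {a b c : QQ} (s s' : ℤˣ) (h : a = s • b) (h' : b = s' • c) : Pe a c :=
  pe_of (s * s') (by rw [h, h', mul_smul])

section rep
variable {Γ Γ' : Type} [Group Γ] [TopologicalSpace Γ] [Group Γ'] [TopologicalSpace Γ']

/-- the inverse -/
def sy {V W : Rep Γ} (A : V.Iso W) : W.Iso V :=
  ⟨A.e.symm, fun g x => A.e.injective (by rw [A.eq, A.e.apply_symm_apply, A.e.apply_symm_apply])⟩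

theorem adm_prod {m : ℕ} {X V : Rep Γ} (h : Adm m X V) (W : Rep Γ) : Adm m (X.prod W) (V.prod W) :=
  h.map fun A => ⟨(A.e.prodCongr (.refl ℝ W.W)).trans (.prodAssoc ℝ _ _ _), fun g x => by
    have t := A.eq g x.1
    exact Prod.ext (congrArg Prod.fst t :) (Prod.ext (congrArg Prod.snd t :) rfl)⟩

theorem adm_res {m : ℕ} {X V : Rep Γ} (h : Adm m X V) (φ : Γ' →* Γ) (hφ : Continuous φ) :
    Adm m (X.res φ hφ) (V.res φ hφ) := h.map fun A => ⟨A.e, fun g x => A.eq (φ g) x⟩

theorem fr_st {X V : Rep Γ} {P : PB X.ls V} (h : P.Fr) (W : Rep Γ) : (P.st W).Fr := by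
  refine ⟨h.op.prod isOpen_univ, fun g x a => ⟨h.inv g _ a.1, trivial⟩,
    (h.ct.comp continuous_fst.continuousOn fun _ a => a.1).prodMk continuous_snd.continuousOn,
    fun g x a => Prod.ext (h.eq g _ a.1) rfl, ?_,
    fun x a g b => h.fr ⟨a.1.1, congrArg Prod.fst a.2⟩ g (congrArg Prod.fst b)⟩
  have e : (P.st W).Z = P.Z ×ˢ {(0 : W.W)} :=
    Set.ext fun x => ⟨fun a => ⟨⟨a.1.1, congrArg Prod.fst a.2⟩, congrArg Prod.snd a.2⟩,
      fun a => ⟨⟨a.1.1, trivial⟩, Prod.ext a.1.2 a.2⟩⟩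
  rw [e]
  exact h.cp.prod isCompact_singleton

theorem fr_res {X : LS Γ} {V : Rep Γ} {P : PB X V} (h : P.Fr) {φ : Γ' →* Γ} (hφ : Continuous φ)
    (i : Function.Injective φ) : (P.res φ hφ).Fr :=
  ⟨h.op, fun g => h.inv (φ g), h.ct, fun g => h.eq (φ g), h.cp,
    fun x a g b => i ((h.fr a (φ g) b).trans φ.map_one.symm)⟩
end rep

variable (B : Type) [NormedAddCommGroup B] [NormedSpace ℝ B] [FiniteDimensional ℝ B]
  {k : ℕ} {E E' : Type} [NormedAddCommGroup E] [NormedSpace ℝ E] [FiniteDimensional ℝ E]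
  [NormedAddCommGroup E'] [NormedSpace ℝ E'] [FiniteDimensional ℝ E']

variable (k E E') in
/-- the two slots -/
def sE : V k (E × E') ≃L[ℝ] V k E × V k E' :=
  LinearEquiv.toContinuousLinearEquiv
    { toFun := fun w => (s1 w, s2 w)
      invFun := fun p => pr p.1 p.2
      map_add' := fun _ _ => rfl
      map_smul' := fun _ _ => rfl
      left_inv := fun _ => rfl
      right_inv := fun _ => rfl }

variable (k E E') in
/-- splitting off a summand -/
def iP : (XX B k (E × E')).Iso ((XX B k E).prod (Rr k E')) :=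
  ⟨((ContinuousLinearEquiv.refl ℝ B).prodCongr (sE k E E')).trans
    (ContinuousLinearEquiv.prodAssoc ℝ _ _ _).symm, fun _ _ => rfl⟩

/-- conjugation -/
def iC (a : V k E' ≃L[ℝ] V k E) (h : ∀ y, a (sh k _ y) = sh k _ (a y)) :
    (XX B k E').Iso (XX B k E) :=
  ⟨(ContinuousLinearEquiv.refl ℝ B).prodCongr a, fun g x => Prod.ext rfl <| by
    have : ∀ (g : Ix k) (y : V k E'), a (fun i => y (i + g)) = fun i => a y (i + g) := fun g => by
      induction g using sh_ind with
      | h0 => intro y; simp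
      | h1 g ih => intro y; rw [← sh_tr, ← sh_tr, h, ih]
    exact this g.toAdd x.2⟩

variable (k) in
/-- the subgroup of index two -/
def db : Gk k →* Gk (k + 1) := Tr.ph (pow_succ 2 (k + 1))

theorem ck_db : (ck (k + 1)).comp (db k) = ck k := (Tr.inc_ph _).symm

theorem db_sub (g : Ix k) : (db k (.ofAdd (g - 1))).toAdd = (db k (.ofAdd g)).toAdd - 1 - 1 := by
  have := Tr.ph_nat (pow_succ 2 (k + 1)) 1
  rw [ofAdd_sub, map_div, toAdd_div, sub_sub]
  congr 1
  rw [Nat.cast_one] at this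
  rw [db, this]
  simp [one_add_one_eq_two]

/-- conjugation onto the subgroup -/
def iR (a : V k E' ≃L[ℝ] V (k + 1) E)
    (h : ∀ y, a (sh k _ y) = sh (k + 1) _ (sh (k + 1) _ (a y))) :
    (XX B k E').Iso ((XX B (k + 1) E).res (db k) (cc _)) :=
  ⟨(ContinuousLinearEquiv.refl ℝ B).prodCongr a, fun g x => Prod.ext rfl <| by
    have : ∀ (g : Ix k) (y : V k E'),
        a (fun i => y (i + g)) = fun i => a y (i + (db k (.ofAdd g)).toAdd) := fun g => by
      induction g using sh_ind with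
      | h0 => intro y; simp
      | h1 g ih => intro y; rw [← sh_tr, h, ih, sh_tr, sh_tr, db_sub]
    exact this g.toAdd x.2⟩

variable {B} {Y C : Type} [TopologicalSpace Y] [T2Space Y] [NormedAddCommGroup C]
  [NormedSpace ℝ C] [FiniteDimensional ℝ C] (e : Emb Y B C)

theorem pb_on (P : Pb Y k E) (N : Set (Y × V k E)) :
    (e.pb P).on {z : B × V k E | (e.π z.1, z.2) ∈ N} = e.pb (P.rs N) :=
  congrArg (PB.mk · _) (Set.ext fun _ => and_assoc)

theorem pb_st (P : Pb Y k E) :
    ((e.pb P).st (Rr k E')).iso (iP B k E E').ls (sy (iP C k E E')) = e.pb (P.st E') :=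
  congrArg (PB.mk · _) (Set.ext fun _ => and_iff_left trivial)

end Gn

open Gn in
theorem gen : GEN := by
  intro m J Y B C _ _ _ _ _ _ _ _ e d k hk
  have g := gq hk
  refine ⟨fun S P Q h => ?_, fun S P N N' a b c u v => ?_, fun S S' P a => ?_,
    fun S S' a P o h => ?_, fun S S' a P o h => ?_⟩
  · induction h with
    | rel P Q h =>
      exact h.elim (fun h => J.bd _ _ _ g (adm d k _) _ _ (e.bd_ht h))
        fun h => (J.bd _ _ _ g (adm d k _) _ _ (e.bd_gm h)).symm
    | refl => rfl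
    | symm _ _ _ ih => exact ih.symm
    | trans _ _ _ _ _ ih ih' => exact ih.trans ih'
  · have := J.sum _ _ _ g (adm d k _) (e.pb P) {z : B × V k S.E | (e.π z.1, z.2) ∈ N}
      {z : B × V k S.E | (e.π z.1, z.2) ∈ N'} (e.pb_fr a) (pb_on e P N ▸ e.pb_fr b)
      (pb_on e P N' ▸ e.pb_fr c) (Set.disjoint_left.2 fun z p q => Set.disjoint_left.1 u p q)
      fun z p => v ⟨p.1.2, congrArg Prod.snd p.2⟩
    exact this.trans (congrArg₂ (fun a b => J.ν _ _ _ a + J.ν _ _ _ b) (pb_on e P N) (pb_on e P N'))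
  · obtain ⟨s, h⟩ := J.stb _ _ _ (Rr k S'.E) g (adm d k S.E)
    obtain ⟨s', h'⟩ := J.iso _ _ _ _ _ g (adm_prod (adm d k S.E) (Rr k S'.E)) (adm d k (S.E × S'.E))
      (iP B k S.E S'.E).ls (sy (iP C k S.E S'.E))
    have := h' _ (fr_st (e.pb_fr a) _)
    rw [pb_st] at this
    exact pe_two s' s this (h _ (e.pb_fr a))
  · obtain ⟨s, h'⟩ := J.iso _ _ _ _ _ g (adm d k S.E) (adm d k S'.E) (iC B a h).ls (sy (iC C a h))
    exact pe_of s (h' _ (e.pb_fr o))
  · obtain ⟨s, h1⟩ := J.res (ck (k + 1)) (db k) _ _ (gq (by omega)) (by rw [ck_db]; exact g)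
      (adm d (k + 1) S.E)
    obtain ⟨s', h2⟩ := J.iso _ _ _ _ _ g (adm_res (adm d (k + 1) S.E) (db k) (cc _))
      (adm d k S'.E) (iR B a h).ls (sy (iR C a h))
    rw [ck_db] at h1
    exact pe_two s' s (h2 _ (fr_res (e.pb_fr o) _ (Tr.ph_inj _))) (h1 _ (e.pb_fr o))

end Crest.Agent.N218.In

end
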