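import Crest.Agent.N218.K.St
import Crest.Agent.N218.Pm.Defs
import Crest.Agent.N218.Fo.Rp

/-!
# Row 218, block INST (helper34): `Th X QQ` from an abstract invariant (FROZEN definitions)
-/

set_option autoImplicit false
set_option linter.unusedVariables false

open Set Topology Module

noncomputable section

namespace Crest.Agent.N218.In

open K Pm

/-- the group of order `2 ^ (k + 1)` -/
abbrev Gk (k : ℕ) : Type := Multiplicative (ZMod (2 ^ (k + 1)))
/-- its character -/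
abbrev ck (k : ℕ) : Gk k →* Circle := Fo.inc (2 ^ (k + 1))

section
variable (B : Type) [NormedAddCommGroup B] [NormedSpace ℝ B] [FiniteDimensional ℝ B]
  (k : ℕ) (E : Type) [NormedAddCommGroup E] [NormedSpace ℝ E] [FiniteDimensional ℝ E]

/-- the real regular representation, `(g y) i = y (i + g)` -/
def Rr : Rep (Gk k) where
  W := V k E
  ρ := { toFun := fun g => ContinuousLinearMap.pi fun i => ContinuousLinearMap.proj (i + g.toAdd)
         map_one' := ContinuousLinearMap.ext fun y => funext fun i => by simp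
         map_mul' := fun g h => ContinuousLinearMap.ext fun y => funext fun i => by
           simp [add_assoc] }
  cont := continuous_of_discreteTopology

theorem Rr_apply (g : Gk k) (y : V k E) (i : Ix k) : (Rr k E).ρ g y i = y (i + g.toAdd) := rfl

/-- `B × V` -/
abbrev XX : Rep (Gk k) := (Rep.triv (Gk k) B).prod (Rr k E)
end

/-- `Y` is cut out of an open subset of `B` by equations with values in `C` -/
structure Emb (Y B C : Type) [TopologicalSpace Y] [TopologicalSpace B] [TopologicalSpace C]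
    [Zero C] where
  Ω : Set B
  π : B → Y
  n : B → C
  op : IsOpen Ω
  cπ : ContinuousOn π Ω
  cn : ContinuousOn n Ω
  cp : ∀ K, IsCompact K → IsCompact {p ∈ Ω | n p = 0 ∧ π p ∈ K}

/-- the angle -/
def ang (w : ℂ) : UnitAddCircle := ((w.arg / (2 * Real.pi) : ℝ) : UnitAddCircle)

namespace Emb
variable {Y B C : Type} [TopologicalSpace Y] [NormedAddCommGroup B] [NormedSpace ℝ B]
  [FiniteDimensional ℝ B] [NormedAddCommGroup C] [NormedSpace ℝ C] [FiniteDimensional ℝ C]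
  (e : Emb Y B C) {k : ℕ} {E : Type} [NormedAddCommGroup E] [NormedSpace ℝ E]
  [FiniteDimensional ℝ E]

/-- the embedded problem -/
def pb (P : Pb Y k E) : PB (XX B k E).ls (XX C k E) :=
  ⟨{z : B × V k E | z.1 ∈ e.Ω ∧ (e.π z.1, z.2) ∈ P.O},
    fun z : B × V k E => (e.n z.1, P.h (e.π z.1, z.2))⟩

/-- its invariant -/
def inv {m : ℕ} (J : AI m) (k : ℕ) (S : Pm.Sp) (P : Pb Y k S.E) : QQ :=
  J.ν (ck k) (XX B k S.E) (XX C k S.E) (e.pb P)

/-- `e'` is the line over `e` -/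
structure Line (e' : Emb (Y × ℝ) (B × ℂ) (C × ℝ)) : Prop where
  Ω : ∀ p, p ∈ e'.Ω ↔ p.1 ∈ e.Ω
  π : ∀ p, e'.π p = (e.π p.1, p.2.re)
  n : ∀ p, e'.n p = (e.n p.1, p.2.im)

/-- `e'` is the circle over `e` -/
structure Circ (e' : Emb (Y × UnitAddCircle) (B × ℂ) (C × ℝ)) : Prop where
  Ω : ∀ p, p ∈ e'.Ω ↔ p.1 ∈ e.Ω ∧ p.2 ≠ 0
  π : ∀ p, e'.π p = (e.π p.1, ang p.2)
  n : ∀ p, e'.n p = (e.n p.1, Real.log ‖p.2‖)
end Emb

set_option hygiene false in
/-- quantify over embeddings -/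
local macro "∀E " e:ident ", " t:term : term =>
  `(∀ {m : ℕ} (J : AI m) {Y B C : Type} [TopologicalSpace Y] [T2Space Y] [NormedAddCommGroup B]
    [NormedSpace ℝ B] [FiniteDimensional ℝ B] [NormedAddCommGroup C] [NormedSpace ℝ C]
    [FiniteDimensional ℝ C] ($e : Emb Y B C), $t)

/-- the formal axioms -/
def GEN : Prop := ∀E e, finrank ℝ B = m + finrank ℝ C → ∀ k, 16 ≤ k →
  (∀ S P Q, Pb.Eqv P Q → e.inv J k S P = e.inv J k S Q) ∧
  (∀ (S : Pm.Sp) (P : Pb Y k S.E) N N', P.Ok → (P.rs N).Ok → (P.rs N').Ok → Disjoint N N' →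
    P.Z ⊆ N ∪ N' → e.inv J k S P = e.inv J k S (P.rs N) + e.inv J k S (P.rs N')) ∧
  (∀ (S S' : Pm.Sp) (P : Pb Y k S.E), P.Ok →
    Pe (e.inv J k (sp (S.E × S'.E)) (P.st S'.E)) (e.inv J k S P)) ∧
  (∀ (S S' : Pm.Sp) (a : V k S'.E ≃L[ℝ] V k S.E) (P : Pb Y k S.E), P.Ok →
    (∀ y, a (sh k _ y) = sh k _ (a y)) → Pe (e.inv J k S' (P.cj a)) (e.inv J k S P)) ∧
  (∀ (S S' : Pm.Sp) (a : V k S'.E ≃L[ℝ] V (k + 1) S.E) (P : Pb Y (k + 1) S.E), P.Ok →
    (∀ y, a (sh k _ y) = sh (k + 1) _ (sh (k + 1) _ (a y))) →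
    Pe (e.inv J k S' (P.cj a)) (e.inv J (k + 1) S P))

/-- the pair of pants -/
def PAN : Prop := ∀E e, finrank ℝ B + 1 = m + finrank ℝ C → ∀ l c, e.Line l → e.Circ c →
  ∀ k (S : Pm.Sp) (P : Pb (Y × ℝ) k S.E) Q, 16 ≤ k → P.Ok → P.cut.Ok → Q.Ok → P.Lp Q →
    Pe (l.inv J k S P - l.inv J k S P.cut) (c.inv J k S Q)

/-- constant loops -/
def CST : Prop := ∀E e, finrank ℝ B + 1 = m + finrank ℝ C → ∀ c, e.Circ c →
  ∀ k (S : Pm.Sp) (P : Pb Y k S.E), 16 ≤ k → P.Ok → c.inv J k S (P.pull Prod.fst) = 0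

/-- **the instance** -/
def th (g : GEN) (p : PAN) (s : CST) {m : ℕ} (J : AI m) {Y B C : Type} [TopologicalSpace Y]
    [T2Space Y] [NormedAddCommGroup B] [NormedSpace ℝ B] [FiniteDimensional ℝ B]
    [NormedAddCommGroup C] [NormedSpace ℝ C] [FiniteDimensional ℝ C] (e : Emb Y B C)
    (h : finrank ℝ B + 1 = m + finrank ℝ C) (l : Emb (Y × ℝ) (B × ℂ) (C × ℝ))
    (c : Emb (Y × UnitAddCircle) (B × ℂ) (C × ℝ)) (hl : e.Line l) (hc : e.Circ c) : Th Y QQ :=
  have d : finrank ℝ (B × ℂ) = m + finrank ℝ (C × ℝ) := by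
    simp only [finrank_prod, Complex.finrank_real_complex, finrank_self]; omega
  { pa := l.inv J
    an := c.inv J
    pa_eqv := fun k S P Q hk => (g J l d k hk).1 S P Q
    an_eqv := fun k S P Q hk => (g J c d k hk).1 S P Q
    pa_sum := fun k S P N N' hk => (g J l d k hk).2.1 S P N N'
    an_sum := fun k S P N N' hk => (g J c d k hk).2.1 S P N N'
    pa_st := fun k S S' P hk => (g J l d k hk).2.2.1 S S' P
    an_st := fun k S S' P hk => (g J c d k hk).2.2.1 S S' P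
    pa_cj := fun k S S' a P hk => (g J l d k hk).2.2.2.1 S S' a P
    an_cj := fun k S S' a P hk => (g J c d k hk).2.2.2.1 S S' a P
    pa_res := fun k S S' a P hk => (g J l d k hk).2.2.2.2 S S' a P
    pants := p J e h l c hl hc
    cst := s J e h c hc
    tor := fun k S P _ _ => J.den _ _ _ _ }

end Crest.Agent.N218.In

end
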