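import Crest.Agent.N218.In.Defs
import Crest.Agent.N218.K.Cy

/-!
# Row 218, block INST (helper89): embedded problems are free and admissible
-/

set_option autoImplicit false
set_option linter.unusedVariables false
set_option linter.unusedSectionVars false

open Set Topology Module unitInterval

noncomputable section

namespace Crest.Agent.N218.In

open K Pm

theorem gq {k : ℕ} (hk : 16 ≤ k) : Gq (ck k) :=
  ⟨Fo.inc_inj _, k + 1, by omega, by simp⟩

theorem ex_half {k : ℕ} : ∀ (j : ℕ) (g : Ix k), 2 ^ j • g = 0 → g ≠ 0 → ∃ n : ℕ, n • g = 2 ^ k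
  | 0, g, h, h' => absurd (by simpa using h) h'
  | j + 1, g, h, h' => by
    by_cases e : 2 • g = 0
    · refine ⟨1, ?_⟩
      have a : -g = g := by rw [neg_eq_iff_add_eq_zero, ← two_nsmul, e]
      have b : g.val = 2 ^ k := by
        have := ((ZMod.neg_eq_self_iff g).1 a).resolve_left h'
        have := pow_succ 2 k
        omega
      rw [one_nsmul, ← ZMod.natCast_zmod_val g, b]
      simp
    · obtain ⟨n, a⟩ := ex_half j (2 • g) (by rw [← mul_nsmul', ← pow_succ]; exact h) e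
      exact ⟨n * 2, by rw [mul_nsmul', a]⟩

section
variable {k : ℕ} {E : Type} [NormedAddCommGroup E] [NormedSpace ℝ E]

/-- points with a non-zero odd part are free -/
theorem fr_of_mn {y : V k E} (h : mn y ≠ 0) {g : Ix k} (e : ∀ i, y (i + g) = y i) : g = 0 := by
  by_contra h'
  obtain ⟨n, a⟩ := ex_half (k + 1) g (by
    rw [nsmul_eq_mul, ZMod.natCast_self, zero_mul]) h'
  have b : ∀ (n : ℕ) i, y (i + n • g) = y i := fun n => by
    induction n with
    | zero => simp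
    | succ n ih => intro i; rw [succ_nsmul, ← add_assoc, e, ih]
  refine h (funext fun i => ?_)
  rw [mn, ← a, b, sub_self, smul_zero]
  rfl

/-- everything that commutes with the shift commutes with the group -/
theorem sh_ind {p : Ix k → Prop} (h0 : p 0) (h1 : ∀ g, p g → p (g - 1)) (g : Ix k) : p g := by
  have : ∀ n : ℕ, p (-(n : Ix k)) := fun n => by
    induction n with
    | zero => simpa using h0
    | succ n ih => have := h1 _ ih; rwa [Nat.cast_succ, neg_add, ← sub_eq_add_neg]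
  have := this (-g).val
  rwa [ZMod.natCast_zmod_val, neg_neg] at this

theorem sh_tr (y : V k E) (g : Ix k) : sh k E (fun i => y (i + g)) = fun i => y (i + (g - 1)) :=
  funext fun i => congrArg y (by ring)

variable {Y : Type} [TopologicalSpace Y] {P : Pb Y k E}

theorem ok_act (h : P.Ok) (g : Ix k) : ∀ b y, (b, y) ∈ P.O →
    (b, fun i => y (i + g)) ∈ P.O ∧ P.h (b, fun i => y (i + g)) = fun i => P.h (b, y) (i + g) := by
  induction g using sh_ind with
  | h0 => exact fun b y a => by simpa using a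
  | h1 g ih =>
    intro b y a
    obtain ⟨u, v⟩ := ih b y a
    rw [← sh_tr, ← sh_tr, ← v]
    exact ⟨h.inv _ u, h.eq _ u⟩

/-- the topological part of admissibility -/
theorem Emb.core [T2Space Y] {B C : Type} [TopologicalSpace B] [T2Space B] [NormedAddCommGroup C]
    (e : Emb Y B C) (h : P.Ok) : IsOpen {z : B × V k E | z.1 ∈ e.Ω ∧ (e.π z.1, z.2) ∈ P.O} ∧
    ContinuousOn (fun z : B × V k E => (e.n z.1, P.h (e.π z.1, z.2)))
      {z : B × V k E | z.1 ∈ e.Ω ∧ (e.π z.1, z.2) ∈ P.O} ∧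
    IsCompact {z ∈ {z : B × V k E | z.1 ∈ e.Ω ∧ (e.π z.1, z.2) ∈ P.O} |
      (e.n z.1, P.h (e.π z.1, z.2)) = 0} := by
  have c : ContinuousOn (fun z : B × V k E => (e.π z.1, z.2)) (Prod.fst ⁻¹' e.Ω) :=
    (e.cπ.comp continuous_fst.continuousOn fun _ a => a).prodMk continuous_snd.continuousOn
  refine ⟨c.isOpen_inter_preimage (e.op.preimage continuous_fst) h.op,
    (e.cn.comp continuous_fst.continuousOn fun _ a => a.1).prodMk
      (h.ct.comp (c.mono fun _ a => a.1) fun _ a => a.2), ?_⟩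
  have k1 := (e.cp _ (h.cp.image continuous_fst)).prod (h.cp.image continuous_snd)
  have := k1.of_isClosed_subset ((c.mono fun _ a => a.1.1).preimage_isClosed_of_isClosed
    k1.isClosed h.cp.isClosed) inter_subset_left
  convert this using 1
  exact Set.ext fun z => ⟨fun a =>
    have b : (e.π z.1, z.2) ∈ P.Z := ⟨a.1.2, congrArg Prod.snd a.2⟩
    ⟨⟨⟨a.1.1, congrArg Prod.fst a.2, _, b, rfl⟩, _, b, rfl⟩, b⟩,
    fun a => ⟨⟨a.1.1.1, a.2.1⟩, Prod.ext a.1.1.2.1 a.2.2⟩⟩

/-- the embedding with a parameter -/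
def Emb.par {B C : Type} [TopologicalSpace B] [T2Space B] [TopologicalSpace C] [Zero C]
    (e : Emb Y B C) [T2Space Y] (T : Type) [TopologicalSpace T] [T2Space T] :
    Emb (Y × T) (B × T) C where
  Ω := Prod.fst ⁻¹' e.Ω
  π p := (e.π p.1, p.2)
  n p := e.n p.1
  op := e.op.preimage continuous_fst
  cπ := (e.cπ.comp continuous_fst.continuousOn fun _ a => a).prodMk continuous_snd.continuousOn
  cn := e.cn.comp continuous_fst.continuousOn fun _ a => a
  cp K k := by
    have c : ContinuousOn (fun z : B × T => (e.π z.1, z.2)) (Prod.fst ⁻¹' e.Ω) :=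
      (e.cπ.comp continuous_fst.continuousOn fun _ a => a).prodMk continuous_snd.continuousOn
    have k1 := (e.cp _ (k.image continuous_fst)).prod (k.image continuous_snd)
    have := k1.of_isClosed_subset ((c.mono fun _ a => a.1.1).preimage_isClosed_of_isClosed
      k1.isClosed k.isClosed) inter_subset_left
    convert this using 1
    exact Set.ext fun z => ⟨fun a => ⟨⟨⟨a.1, a.2.1, _, a.2.2, rfl⟩, _, a.2.2, rfl⟩, a.2.2⟩,
      fun a => ⟨a.1.1.1, a.1.1.2.1, a.2⟩⟩
end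

variable {Y B C : Type} [TopologicalSpace Y] [T2Space Y] [NormedAddCommGroup B] [NormedSpace ℝ B]
  [FiniteDimensional ℝ B] [NormedAddCommGroup C] [NormedSpace ℝ C] [FiniteDimensional ℝ C]
  {k : ℕ} {E : Type} [NormedAddCommGroup E] [NormedSpace ℝ E] [FiniteDimensional ℝ E]

theorem XX_act (g : Gk k) (b : B) (y : V k E) :
    (XX B k E).ls.act g (b, y) = (b, fun i => y (i + g.toAdd)) := rfl
theorem XX_rho (g : Gk k) (b : B) (y : V k E) :
    (XX B k E).ρ g (b, y) = (b, fun i => y (i + g.toAdd)) := rfl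

theorem mem_fr {z : B × V k E} (h : mn z.2 ≠ 0) : z ∈ (XX B k E).ls.fr := fun g a =>
  fr_of_mn (g := g.toAdd) h fun i => congrFun (congrArg Prod.snd a) i

theorem adm {m : ℕ} (h : finrank ℝ B = m + finrank ℝ C) (k : ℕ) (E : Type)
    [NormedAddCommGroup E] [NormedSpace ℝ E] [FiniteDimensional ℝ E] :
    Adm m (XX B k E) (XX C k E) :=
  ⟨⟨((ContinuousLinearEquiv.ofFinrankEq (E := B) (F := (Fin m → ℝ) × C) (by simpa using h)).prodCongr
    (.refl ℝ (V k E))).trans (.prodAssoc ℝ _ _ _), fun _ _ => rfl⟩⟩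

namespace Emb
variable (e : Emb Y B C) {P Q : Pb Y k E}

/-- **embedded problems are free** -/
theorem pb_fr (h : P.Ok) : (e.pb P).Fr :=
  have ⟨a, b, c⟩ := e.core h
  ⟨a, fun g z u => ⟨u.1, (ok_act h g.toAdd _ _ u.2).1⟩, b,
    fun g z u => Prod.ext rfl (ok_act h g.toAdd _ _ u.2).2, c, fun z u => mem_fr (h.fr _ u.1.2)⟩

/-- families of embedded problems -/
def pf {T : Type} [TopologicalSpace T] [LocallyCompactSpace T] [T2Space T] (R : Pb (Y × T) k E) :
    PB ((XX B k E).ls.prod (LS.triv (Gk k) T)) (XX C k E) :=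
  PB.fam {z : (B × V k E) × T | z.1.1 ∈ e.Ω ∧ ((e.π z.1.1, z.2), z.1.2) ∈ R.O}
    fun z : (B × V k E) × T => (e.n z.1.1, R.h ((e.π z.1.1, z.2), z.1.2))

theorem pf_sl {T : Type} [TopologicalSpace T] [LocallyCompactSpace T] [T2Space T]
    (R : Pb (Y × T) k E) (t : T) : (e.pf R).sl t = e.pb (R.pull fun b => (b, t)) := rfl

theorem pf_ok {T : Type} [TopologicalSpace T] [LocallyCompactSpace T] [T2Space T]
    {R : Pb (Y × T) k E} (h : R.Ok) : (e.pf R).Ok (Prod.fst ⁻¹' (XX B k E).ls.fr) := by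
  obtain ⟨a, b, c⟩ := (e.par T).core h
  let s : ((B × V k E) × T) ≃ₜ ((B × T) × V k E) :=
    ⟨⟨fun z => ((z.1.1, z.2), z.1.2), fun z => ((z.1.1, z.2), z.1.2), fun _ => rfl, fun _ => rfl⟩,
      by fun_prop, by fun_prop⟩
  exact PB.fam_ok (a.preimage s.continuous) (fun g z t u => ⟨u.1, (ok_act h g.toAdd _ _ u.2).1⟩)
    (b.comp s.continuous.continuousOn fun _ u => u)
    (fun g z t u => Prod.ext rfl (ok_act h g.toAdd _ _ u.2).2) (s.isCompact_preimage.2 c)
    fun z t u _ => mem_fr (h.fr _ u.2)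

theorem pb_le (s : Q.O ⊆ P.O) (a : EqOn Q.h P.h Q.O) (z : P.Z ⊆ Q.O) : (e.pb Q).Le (e.pb P) :=
  ⟨fun _ u => ⟨u.1, s u.2⟩, fun _ u => Prod.ext rfl (a u.2),
    fun _ u => ⟨u.1.1, z ⟨u.1.2, congrArg Prod.snd u.2⟩⟩⟩

theorem bd_gm (h : P.Gm Q) : (e.pb Q).Bd (e.pb P) :=
  (e.pb_le h.2.2.1 h.2.2.2.1 h.2.2.2.2).hb (e.pb_fr h.2.1) (e.pb_fr h.1)

theorem le_sm (h : P.Sm Q) : (e.pb P).Le (e.pb Q) ∧ (e.pb Q).Le (e.pb P) :=
  ⟨e.pb_le h.1.subset h.2 fun _ u => h.1 ▸ u.1,
    e.pb_le h.1.symm.subset (fun _ u => (h.2 (h.1 ▸ u)).symm) fun _ u => h.1 ▸ u.1⟩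

theorem fr_sm (h : P.Sm Q) (q : (e.pb Q).Fr) : (e.pb P).Fr :=
  have a : (e.pb P).O = (e.pb Q).O := (e.le_sm h).1.sub.antisymm (e.le_sm h).2.sub
  (e.le_sm h).1.ok q (a ▸ q.op) (a ▸ q.inv)

theorem bd_ht (h : P.Ht Q) : (e.pb P).Bd (e.pb Q) :=
  have ⟨R, r, a, b⟩ := h
  ⟨e.fr_sm a ((e.pf_ok r).sl 0), e.fr_sm b ((e.pf_ok r).sl 1), e.pf R, e.pf_ok r, (e.le_sm a).2,
    (e.le_sm b).2⟩

end Emb

end Crest.Agent.N218.In

end
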