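import Crest.Agent.N218.In.Chart
import Crest.Agent.N218.In.Emb

/-!
# Row 218, block INST (helper29): the stereographic chart
-/

set_option autoImplicit false
set_option linter.unusedVariables false
set_option linter.unusedSectionVars false

open Set Topology Module unitInterval

noncomputable section

namespace Crest.Agent.N218.In.Ch

open K Pm

section sph
open scoped InnerProductSpace
variable {F E Y₂ B₂ C₂ : Type} [NormedAddCommGroup F] [InnerProductSpace ℝ F]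
  [FiniteDimensional ℝ F] [NormedAddCommGroup E] [InnerProductSpace ℝ E] [FiniteDimensional ℝ E]
  [TopologicalSpace Y₂] [T2Space Y₂] [NormedAddCommGroup B₂] [NormedSpace ℝ B₂]
  [FiniteDimensional ℝ B₂] [NormedAddCommGroup C₂] [NormedSpace ℝ C₂] [FiniteDimensional ℝ C₂]

/-- `‖t x - (t r + 1) v‖` -/
def rh (x : F) (r t : ℝ) : ℝ := √(t ^ 2 * ‖x‖ ^ 2 + (t * r + 1) ^ 2)
/-- the equation of the sphere of curvature `t` -/
def mm (x : F) (r t : ℝ) : ℝ := r + t * (‖x‖ ^ 2 + r ^ 2) / 2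

theorem rh_sq (x : F) (r t : ℝ) : rh x r t ^ 2 = 1 + 2 * t * mm x r t := by
  rw [rh, Real.sq_sqrt (by positivity), mm]; ring

theorem rh_pos {x : F} {r t : ℝ} (h : 0 < rh x r t + (t * r + 1)) : 0 < rh x r t := by
  refine (Real.sqrt_nonneg _).lt_of_ne fun e => ?_
  have := rh_sq x r t
  rw [rh, ← e] at h this
  rw [mm] at this
  nlinarith [sq_nonneg (t * ‖x‖)]

theorem rh_one {x : F} {r t : ℝ} (h : mm x r t = 0) : rh x r t = 1 := by
  have := rh_sq x r t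
  rw [h, mul_zero, add_zero] at this
  exact (pow_eq_one_iff_of_nonneg (Real.sqrt_nonneg _) two_ne_zero).1 this

theorem nz_iff {x : F} {r t : ℝ} (h : 0 < rh x r t) (h0 : 0 ≤ t) (h1 : t ≤ 1) :
    t * Real.log (rh x r t) + (1 - t) * mm x r t = 0 ↔ mm x r t = 0 := by
  refine ⟨fun e => ?_, fun e => by simp [rh_one e, e]⟩
  have s := rh_sq x r t
  rcases h0.eq_or_lt with rfl | h0
  · simpa using e
  rcases lt_trichotomy (mm x r t) 0 with k | k | k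
  · have : rh x r t < 1 := by nlinarith [mul_pos h0 (neg_pos.2 k)]
    nlinarith [mul_pos h0 (neg_pos.2 (Real.log_neg h this)), mul_nonneg (sub_nonneg.2 h1) (neg_pos.2 k).le]
  · exact k
  · have : 1 < rh x r t := by nlinarith [mul_pos h0 k]
    nlinarith [mul_pos h0 (Real.log_pos this), mul_nonneg (sub_nonneg.2 h1) k.le]

/-- the point over `y` -/
def pt (y : F) (t : ℝ) : F × ℝ :=
  ((1 + t ^ 2 * ‖y‖ ^ 2 / 4)⁻¹ • y, -(t / 2) * (1 + t ^ 2 * ‖y‖ ^ 2 / 4)⁻¹ * ‖y‖ ^ 2)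

theorem pt_spec (y : F) (t : ℝ) : mm (pt y t).1 (pt y t).2 t = 0 ∧
    1 + (t * (pt y t).2 + 1) = 2 * (1 + t ^ 2 * ‖y‖ ^ 2 / 4)⁻¹ := by
  have : 0 < 1 + t ^ 2 * ‖y‖ ^ 2 / 4 := by positivity
  simp only [mm, pt, norm_smul, mul_pow, Real.norm_eq_abs, sq_abs]
  constructor <;> field_simp <;> ring

theorem eq_pt {x : F} {r t : ℝ} (h : 0 < 1 + (t * r + 1)) (e : mm x r t = 0) :
    (x, r) = pt ((2 / (1 + (t * r + 1))) • x) t := by
  rw [mm] at e
  obtain ⟨b, hb⟩ : ∃ b, b = 1 + (t * r + 1) := ⟨_, rfl⟩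
  rw [← hb] at h ⊢
  have n : ‖(2 / b) • x‖ ^ 2 = 4 * ‖x‖ ^ 2 / b ^ 2 := by
    rw [norm_smul, mul_pow, Real.norm_eq_abs, sq_abs]; ring
  have a : (1 + t ^ 2 * ‖(2 / b) • x‖ ^ 2 / 4)⁻¹ = b / 2 := by
    rw [inv_eq_iff_eq_inv, n]
    field_simp
    subst hb; linear_combination 2 * t * e
  rw [pt, a, smul_smul, n]
  congr 1
  · rw [show b / 2 * (2 / b) = 1 by field_simp, one_smul]
  · field_simp
    subst hb; linear_combination 8 * e

variable (F) in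
/-- the flat embedding `F = F × 0` -/
def fl : Emb F (F × ℝ) ℝ :=
  ⟨univ, Prod.fst, Prod.snd, isOpen_univ, continuousOn_fst, continuousOn_snd, fun K hK => by
    convert hK.prod (isCompact_singleton (x := (0 : ℝ))) using 1
    ext p; exact ⟨fun h => ⟨h.2.2, h.2.1⟩, fun h => ⟨trivial, h.2, h.1⟩⟩⟩

variable (F) in
/-- spheres of curvature `t ∈ [0,1]` -/
def hh (e₂ : Emb Y₂ B₂ C₂) : Emb (F × Y₂) (((F × ℝ) × B₂) × I) (ℝ × C₂) :=
  have c : Continuous fun p : ((F × ℝ) × B₂) × I => rh p.1.1.1 p.1.1.2 (σ p.2) := by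
    unfold rh; fun_prop
  have c' : Continuous fun p : ((F × ℝ) × B₂) × I =>
      rh p.1.1.1 p.1.1.2 (σ p.2) + ((σ p.2 : ℝ) * p.1.1.2 + 1) := c.add (by fun_prop)
  have s : ContinuousOn (fun p : ((F × ℝ) × B₂) × I => p.1.2) univ := by fun_prop
  { Ω := {p | 0 < rh p.1.1.1 p.1.1.2 (σ p.2) + ((σ p.2 : ℝ) * p.1.1.2 + 1) ∧ p.1.2 ∈ e₂.Ω}
    π := fun p => ((2 / (rh p.1.1.1 p.1.1.2 (σ p.2) + ((σ p.2 : ℝ) * p.1.1.2 + 1))) • p.1.1.1,
      e₂.π p.1.2)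
    n := fun p => ((σ p.2 : ℝ) * Real.log (rh p.1.1.1 p.1.1.2 (σ p.2)) +
      (1 - σ p.2) * mm p.1.1.1 p.1.1.2 (σ p.2), e₂.n p.1.2)
    op := (isOpen_lt continuous_const c').inter (e₂.op.preimage continuous_fst.snd)
    cπ := ((continuousOn_const.div c'.continuousOn fun _ h => h.1.ne').smul (by fun_prop)).prodMk
      (e₂.cπ.comp (s.mono (subset_univ _)) fun _ h => h.2)
    cn := (((by fun_prop : Continuous fun p : ((F × ℝ) × B₂) × I =>
      (σ p.2 : ℝ)).continuousOn.mul (c.continuousOn.log fun _ h => (rh_pos h.1).ne')).add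
        (by unfold mm; fun_prop)).prodMk (e₂.cn.comp (s.mono (subset_univ _)) fun _ h => h.2)
    cp := fun K hK => by
      have u : Continuous fun p : ((F × ℝ) × B₂) × I => ((pt p.1.1.1 (σ p.2), p.1.2), p.2) := by
        unfold pt; fun_prop (disch := intro; positivity)
      convert ((((fl F).prod e₂).cp K hK).prod isCompact_univ).image u using 1
      ext ⟨⟨⟨x, r⟩, b⟩, τ⟩
      constructor
      · rintro ⟨⟨h, hb⟩, n, k⟩
        have m := (nz_iff (rh_pos h) (σ τ).2.1 (σ τ).2.2).1 (congrArg Prod.fst n)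
        simp only [rh_one m] at h k
        exact ⟨(((_, 0), b), τ), ⟨⟨⟨trivial, hb⟩, Prod.ext rfl (congrArg Prod.snd n :), k⟩, trivial⟩,
          Prod.ext (Prod.ext (eq_pt h m).symm rfl) rfl⟩
      · rintro ⟨⟨⟨⟨y, r'⟩, b'⟩, τ'⟩, ⟨⟨⟨-, hb⟩, n, k⟩, -⟩, e'⟩
        obtain ⟨⟨e, rfl⟩, rfl⟩ : (pt y (σ τ') = (x, r) ∧ b' = b) ∧ τ' = τ := by simpa using e'
        obtain ⟨m, w⟩ := pt_spec y (σ τ')
        have e1 := congrArg Prod.fst e
        rw [e] at m w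
        have q : 0 < (1 + (σ τ' : ℝ) ^ 2 * ‖y‖ ^ 2 / 4)⁻¹ := by positivity
        refine ⟨⟨by simp only [rh_one m, w]; positivity, hb⟩,
          Prod.ext ((nz_iff (by rw [rh_one m]; exact one_pos) (σ τ').2.1 (σ τ').2.2).2 m)
            (congrArg Prod.snd n :), ?_⟩
        simp only [rh_one m, w]
        rwa [← show _ = x from e1, pt, smul_smul, show 2 / (2 * (1 + (σ τ' : ℝ) ^ 2 * ‖y‖ ^ 2 / 4)⁻¹) *
          (1 + (σ τ' : ℝ) ^ 2 * ‖y‖ ^ 2 / 4)⁻¹ = 1 by field_simp, one_smul] }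

/-- **the stereographic chart** with pole `v`, times any second factor -/
theorem sim_sph (j : F →ₗᵢ[ℝ] E) {v : E} (hv : ‖v‖ = 1) (hj : ∀ x, ⟪v, j x⟫_ℝ = 0)
    (d : finrank ℝ E = finrank ℝ F + 1) {φ : F → Metric.sphere (0 : E) 1} (hφ : IsInducing φ)
    (f : ∀ y, (φ y : E) = (‖y‖ ^ 2 + 4)⁻¹ • ((4 : ℝ) • j y + (‖y‖ ^ 2 - 4) • v))
    (e₂ : Emb Y₂ B₂ C₂) (l : Emb (Metric.sphere (0 : E) 1 × Y₂) (E × B₂) (ℝ × C₂))
    (hΩ : ∀ p, p ∈ l.Ω ↔ p.1 ≠ 0 ∧ p.2 ∈ e₂.Ω)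
    (hπ : ∀ p ∈ l.Ω, ((l.π p).1 : E) = ‖p.1‖⁻¹ • p.1 ∧ (l.π p).2 = e₂.π p.2)
    (hn : ∀ p ∈ l.Ω, l.n p = (Real.log ‖p.1‖, e₂.n p.2)) :
    Sim (Prod.map φ id) ((fl F).prod e₂) l := by
  have iv : ∀ x (c : ℝ), ⟪v, j x - c • v⟫_ℝ = -c := fun x c => by
    rw [inner_sub_right, hj, inner_smul_right, real_inner_self_eq_norm_sq, hv]; ring
  have nr : ∀ x (r : ℝ), ‖j x - (r + 1) • v‖ = rh x r 1 := fun x r => by
    rw [rh, eq_comm, Real.sqrt_eq_iff_eq_sq (by positivity) (norm_nonneg _), norm_sub_sq_real,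
      inner_smul_right, real_inner_comm, hj, j.norm_map, norm_smul, hv, mul_one, Real.norm_eq_abs,
      sq_abs]; ring
  let Λ : (F × ℝ) ≃ₗ[ℝ] E := LinearMap.linearEquivOfInjective
    (j.toLinearMap.coprod (-LinearMap.toSpanSingleton ℝ E v))
    ((injective_iff_map_eq_zero _).2 fun p h => by
      have h' : j p.1 - p.2 • v = 0 := (sub_eq_add_neg _ _).trans h
      have := iv p.1 p.2
      rw [h', inner_zero_right, zero_eq_neg] at this
      rw [this, zero_smul, sub_zero, map_eq_zero_iff _ j.injective] at h'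
      exact Prod.ext h' this) (by simp [d])
  let A : (F × ℝ) × B₂ ≃ₜ E × B₂ := ((Homeomorph.addRight (0, 1)).trans
    Λ.toContinuousLinearEquiv.toHomeomorph).prodCongr (.refl _)
  have hA : ∀ x r b, A ((x, r), b) = (j x - (r + 1) • v, b) := fun x r b =>
    Prod.ext (show j (x + 0) + -((r + 1) • v) = _ by rw [add_zero, sub_eq_add_neg]) rfl
  have k : Sim id (cm l A (.refl ℝ _)) l := (sim_iso l (cm l A (.refl ℝ _)) A (.refl ℝ _)
    (by simp [d]) (fun _ => Iff.rfl) (fun _ _ => rfl) fun _ _ => rfl).symm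
  suffices h : Sim (Prod.map φ id) ((fl F).prod e₂) (cm l A (.refl ℝ _)) from h.trans k
  refine sim_ht (B := (F × ℝ) × B₂) (C := ℝ × C₂) (hh F e₂) _ _ (hφ.prodMap .id) ?_ ?_ ?_ ?_
  · rintro ⟨⟨x, r⟩, b⟩ ⟨h, hb⟩
    simp only [unitInterval.symm_zero, Icc.coe_one, one_mul] at h hb
    have p := rh_pos (t := 1) (by rwa [one_mul])
    have o : A ((x, r), b) ∈ l.Ω := (hΩ _).2 ⟨by rw [hA, ← norm_ne_zero_iff, nr]; exact p.ne', hb⟩
    refine ⟨o, Prod.ext (Subtype.ext ?_) (hπ _ o).2.symm, Eq.trans ?_ (hn _ o).symm⟩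
    · refine (f _).trans (Eq.trans ?_ (hπ _ o).1.symm)
      have s := rh_sq x r 1
      simp only [hh, unitInterval.symm_zero, Icc.coe_one, one_mul, hA, nr, mm] at s ⊢
      generalize rh x r 1 = ρ at *
      have n : ‖(2 / (ρ + (r + 1))) • x‖ ^ 2 = 4 * (ρ - (r + 1)) / (ρ + (r + 1)) := by
        rw [norm_smul, mul_pow, Real.norm_eq_abs, sq_abs]
        field_simp; linear_combination -4 * s
      rw [n, show 4 * (ρ - (r + 1)) / (ρ + (r + 1)) + 4 = 8 * ρ / (ρ + (r + 1)) by field_simp; ring,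
        map_smul]
      match_scalars <;> field_simp <;> ring
    · simp [hh, hA, nr]
  · rintro ⟨⟨x, r⟩, b⟩ o n ⟨y, hy⟩
    have o' := (hΩ _).1 o
    have n1 : ‖(A ((x, r), b)).1‖ = 1 := (log_zero o'.1).1 (congrArg Prod.fst ((hn _ o).symm.trans n))
    have := congrArg (fun w : E => ⟪v, w⟫_ℝ)
      ((f y.1).symm.trans ((congrArg (fun w => (w.1 : E)) hy).trans (hπ _ o).1))
    simp only [n1, inv_one, one_smul] at this
    rw [hA, nr] at n1
    simp only [hA, iv, inner_smul_right, inner_add_right, hj, real_inner_self_eq_norm_sq, hv] at this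
    refine ⟨?_, o'.2⟩
    simp only [unitInterval.symm_zero, Icc.coe_one, one_mul, n1]
    have q : 0 < ‖y.1‖ ^ 2 + 4 := by positivity
    field_simp at this
    nlinarith
  · rintro ⟨⟨x, r⟩, b⟩ ⟨-, hb⟩
    exact ⟨⟨trivial, hb⟩, by simp [hh, rh, fl, Emb.prod, one_add_one_eq_two],
      by simp [hh, mm, fl, Emb.prod]⟩
  · rintro ⟨⟨x, r⟩, b⟩ ⟨-, hb⟩ -
    exact ⟨by simp [rh], hb⟩

/-- homeomorphisms of the chart -/
theorem sim_fl {F' : Type} [NormedAddCommGroup F'] [InnerProductSpace ℝ F'] [FiniteDimensional ℝ F']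
    (ψ : F' ≃ₜ F) (d : finrank ℝ F' = finrank ℝ F) (e₂ : Emb Y₂ B₂ C₂) :
    Sim (Prod.map ψ id) ((fl F').prod e₂) ((fl F).prod e₂) :=
  let A : (F × ℝ) × B₂ ≃ₜ (F' × ℝ) × B₂ := (ψ.symm.prodCongr (.refl _)).prodCongr (.refl _)
  Sim.trans (ψ := id) (φ := Prod.map ψ id) (sim_iso _ (cm ((fl F').prod e₂) A (.refl ℝ _)) A (.refl ℝ _) (by simp [d])
    (fun _ => Iff.rfl) (fun _ _ => rfl) fun _ _ => rfl)
    (sim_opn _ ((fl F).prod e₂) (ψ.isInducing.prodMap .id)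
      (fun p h => ⟨h, Prod.ext (ψ.apply_symm_apply p.1.1) rfl, rfl⟩) fun p h _ _ => h)

/-- the chart of Mathlib -/
theorem sim_st {n : ℕ} [Fact (finrank ℝ E = n + 1)] (v : Metric.sphere (0 : E) 1)
    (e₂ : Emb Y₂ B₂ C₂) (l : Emb (Metric.sphere (0 : E) 1 × Y₂) (E × B₂) (ℝ × C₂))
    (hΩ : ∀ p, p ∈ l.Ω ↔ p.1 ≠ 0 ∧ p.2 ∈ e₂.Ω)
    (hπ : ∀ p ∈ l.Ω, ((l.π p).1 : E) = ‖p.1‖⁻¹ • p.1 ∧ (l.π p).2 = e₂.π p.2)
    (hn : ∀ p ∈ l.Ω, l.n p = (Real.log ‖p.1‖, e₂.n p.2)) :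
    ∃ φ : EuclideanSpace ℝ (Fin n) → Metric.sphere (0 : E) 1, IsOpenEmbedding φ ∧
      range φ = {v}ᶜ ∧ (∀ y, ⟪(φ y : E), v⟫_ℝ = (‖y‖ ^ 2 - 4) / (‖y‖ ^ 2 + 4)) ∧
      Sim (Prod.map φ id) ((fl _).prod e₂) l := by
  have o := (stereographic' n v).symm.isOpenEmbedding (stereographic'_target v)
  let U := (OrthonormalBasis.fromOrthogonalSpanSingleton (𝕜 := ℝ) n
    (ne_zero_of_mem_unit_sphere v)).repr
  let j : EuclideanSpace ℝ (Fin n) →ₗᵢ[ℝ] E :=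
    (ℝ ∙ (v : E))ᗮ.subtypeₗᵢ.comp U.symm.toLinearIsometry
  have hv := norm_eq_of_mem_sphere v
  have hj : ∀ x, ⟪(v : E), j x⟫_ℝ = 0 := fun x =>
    Submodule.mem_orthogonal_singleton_iff_inner_right.1 (U.symm x).2
  have f : ∀ y, ((stereographic' n v).symm y : E) =
      (‖y‖ ^ 2 + 4)⁻¹ • ((4 : ℝ) • j y + (‖y‖ ^ 2 - 4) • (v : E)) := fun y => by
    rw [stereographic'_symm_apply, smul_add, ← j.norm_map]; rfl
  refine ⟨_, o, ?_, fun y => ?_, sim_sph j hv hj (by simpa using Fact.out) o.isInducing f e₂ l hΩ hπ hn⟩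
  · rw [← stereographic'_source (n := n) v, ← image_univ, ← stereographic'_target (n := n) v]
    exact (stereographic' n v).symm.image_source_eq_target
  · rw [f, real_inner_comm]
    simp only [inner_smul_right, inner_add_right, hj, real_inner_self_eq_norm_sq, hv]
    ring
end sph

end Crest.Agent.N218.In.Ch

end
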