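import Crest.Agent.N218.In.Defs

/-!
# Row 218, block INST (helper29): independence of the embedding
-/

set_option autoImplicit false
set_option linter.unusedVariables false
set_option linter.unusedSectionVars false

open Set Topology Module unitInterval

noncomputable section

namespace Crest.Agent.N218.In.Ch

open K Pm

theorem gq {k : ℕ} (hk : 16 ≤ k) : Gq (ck k) :=
  ⟨Fo.inc_inj _, k + 1, by omega, by simp [ZMod.card]⟩

section
variable {k : ℕ} {E : Type} [NormedAddCommGroup E] [NormedSpace ℝ E] [FiniteDimensional ℝ E]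

theorem rho_succ (n : ℕ) (y : V k E) : (Rr k E).ρ (.ofAdd (-((n + 1 : ℕ) : Ix k))) y =
    sh k E ((Rr k E).ρ (.ofAdd (-(n : Ix k))) y) := funext fun i => by
  change y (i + -((n + 1 : ℕ) : Ix k)) = y (i - 1 + -(n : Ix k))
  congr 1; push_cast; ring

theorem rho_ind {p : (V k E → V k E) → Prop} (h0 : p id) (h1 : ∀ f, p f → p (sh k E ∘ f))
    (g : Gk k) : p ((Rr k E).ρ g) := by
  obtain ⟨n, hn⟩ := ZMod.natCast_zmod_surjective (-g.toAdd)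
  obtain rfl : g = .ofAdd (-(n : Ix k)) := by rw [hn, neg_neg]; rfl
  clear hn
  induction n with
  | zero =>
    have : (⇑((Rr k E).ρ (.ofAdd (-((0 : ℕ) : Ix k)))) : V k E → V k E) = id :=
      funext fun y => funext fun i => by change y (i + -((0 : ℕ) : Ix k)) = y i; simp
    exact this ▸ h0
  | succ n ih => exact (funext (rho_succ (k := k) (E := E) n) :) ▸ h1 _ ih

theorem free {y : V k E} (h : mn y ≠ 0) {g : Gk k} (e : (Rr k E).ρ g y = y) : g = 1 := by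
  by_contra hg
  have a : ∀ n : ℕ, ∀ i, y (i + n * g.toAdd) = y i := fun n => by
    induction n with
    | zero => simp
    | succ n ih =>
      intro i
      rw [← ih i, ← congrFun e (i + n * g.toAdd), Rr_apply]; congr 1; push_cast; ring
  obtain ⟨n, hn⟩ : ∃ n : ℕ, (n : Ix k) * g.toAdd = 2 ^ k := by
    have h0 : g.toAdd.val ≠ 0 := fun h => hg (Multiplicative.toAdd.injective
      ((ZMod.val_eq_zero _).1 h))
    obtain ⟨j, m, hm, e⟩ := Nat.exists_eq_two_pow_mul_odd h0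
    have jk : j ≤ k := by
      have := g.toAdd.val_lt
      rw [e] at this
      have := (Nat.le_mul_of_pos_right (2 ^ j) hm.pos).trans_lt this
      exact Nat.lt_succ_iff.1 ((Nat.pow_lt_pow_iff_right one_lt_two).1 this)
    obtain ⟨c, rfl⟩ := hm
    obtain ⟨d, rfl⟩ := Nat.exists_eq_add_of_le jk
    refine ⟨2 ^ d, ?_⟩
    have z : ((2 ^ (j + d + 1) : ℕ) : Ix (j + d)) = 0 := ZMod.natCast_self _
    rw [← ZMod.natCast_zmod_val g.toAdd, e]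
    push_cast at z ⊢
    linear_combination c * z
  exact h (funext fun i => by simp [mn, ← hn, a])

variable {Y : Type} [TopologicalSpace Y] {P : Pb Y k E}

theorem ok_act (h : P.Ok) (g : Gk k) : ∀ x ∈ P.O, (x.1, (Rr k E).ρ g x.2) ∈ P.O ∧
    P.h (x.1, (Rr k E).ρ g x.2) = (Rr k E).ρ g (P.h x) :=
  rho_ind (p := fun f => ∀ x ∈ P.O, (x.1, f x.2) ∈ P.O ∧ P.h (x.1, f x.2) = f (P.h x))
    (fun x hx => ⟨hx, rfl⟩) (fun f hf x hx => ⟨h.inv _ (hf x hx).1,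
      (h.eq _ (hf x hx).1).trans (congrArg (sh k E) (hf x hx).2)⟩) g

theorem ok_pull {Y' : Type} [TopologicalSpace Y'] {φ : Y' → Y} (hφ : IsInducing φ) (h : P.Ok)
    (z : ∀ x ∈ P.Z, x.1 ∈ range φ) : (P.pull φ).Ok :=
  have c : IsInducing (Prod.map φ (id : V k E → _)) := hφ.prodMap IsInducing.id
  ⟨h.op.preimage c.continuous, fun x hx => h.inv _ hx,
    h.ct.comp c.continuous.continuousOn fun x hx => hx, fun x hx => h.eq _ hx,
    c.isCompact_preimage' h.cp fun x hx => let ⟨y, hy⟩ := z x hx; ⟨(y, x.2), Prod.ext hy rfl⟩,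
    fun x hx => h.fr (φ x.1, x.2) hx⟩

/-- topological part: `B` is any space -/
theorem top {B C : Type} [TopologicalSpace B] [TopologicalSpace C] [Zero C] [T2Space Y]
    (e : Emb Y B C) (h : P.Ok) : IsOpen {z : B × V k E | z.1 ∈ e.Ω ∧ (e.π z.1, z.2) ∈ P.O} ∧
    ContinuousOn (fun z : B × V k E => (e.n z.1, P.h (e.π z.1, z.2)))
      {z | z.1 ∈ e.Ω ∧ (e.π z.1, z.2) ∈ P.O} ∧
    IsCompact {z : B × V k E | (z.1 ∈ e.Ω ∧ (e.π z.1, z.2) ∈ P.O) ∧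
      (e.n z.1, P.h (e.π z.1, z.2)) = 0} := by
  have c : ContinuousOn (fun z : B × V k E => (e.π z.1, z.2)) (Prod.fst ⁻¹' e.Ω) :=
    (e.cπ.comp continuousOn_fst fun _ h => h).prodMk continuousOn_snd
  refine ⟨c.isOpen_inter_preimage (e.op.preimage continuous_fst) h.op,
    (e.cn.comp continuousOn_fst fun _ h => h.1).prodMk
      (h.ct.comp (c.mono fun _ h => h.1) fun _ h => h.2), ?_⟩
  have k1 := (e.cp _ (h.cp.image continuous_fst)).prod (h.cp.image continuous_snd)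
  rw [isCompact_iff_compactSpace] at k1
  have := ((h.cp.isClosed.preimage (continuousOn_iff_continuous_domRestrict.1
    (c.mono (t := {p | p ∈ e.Ω ∧ e.n p = 0 ∧ e.π p ∈ Prod.fst '' P.Z} ×ˢ
      (Prod.snd '' P.Z)) fun _ h => h.1.1))).isCompact).image continuous_subtype_val
  convert this using 1
  ext z
  constructor
  · rintro ⟨⟨a, b⟩, d⟩
    have m : (e.π z.1, z.2) ∈ P.Z := ⟨b, congrArg Prod.snd d⟩
    exact ⟨⟨z, ⟨a, congrArg Prod.fst d, _, m, rfl⟩, _, m, rfl⟩, m, rfl⟩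
  · rintro ⟨⟨z, a, a'⟩, b, rfl⟩
    exact ⟨⟨a.1, b.1⟩, Prod.ext a.2.1 b.2⟩
end

variable {Y Y' Y'' B B' B'' C C' C'' : Type} [TopologicalSpace Y] [T2Space Y]
  [TopologicalSpace Y'] [T2Space Y'] [TopologicalSpace Y''] [T2Space Y'']
  [NormedAddCommGroup B] [NormedSpace ℝ B] [FiniteDimensional ℝ B]
  [NormedAddCommGroup B'] [NormedSpace ℝ B'] [FiniteDimensional ℝ B']
  [NormedAddCommGroup B''] [NormedSpace ℝ B''] [FiniteDimensional ℝ B'']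
  [NormedAddCommGroup C] [NormedSpace ℝ C] [FiniteDimensional ℝ C]
  [NormedAddCommGroup C'] [NormedSpace ℝ C'] [FiniteDimensional ℝ C']
  [NormedAddCommGroup C''] [NormedSpace ℝ C''] [FiniteDimensional ℝ C'']

section
variable {k : ℕ} {E : Type} [NormedAddCommGroup E] [NormedSpace ℝ E] [FiniteDimensional ℝ E]

theorem adm {m : ℕ} (h : finrank ℝ B = m + finrank ℝ C) : Adm m (XX B k E) (XX C k E) :=
  have a : B ≃L[ℝ] (Fin m → ℝ) × C := ContinuousLinearEquiv.ofFinrankEq (by simp [h])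
  ⟨⟨(a.prodCongr (.refl ℝ (V k E))).trans (.prodAssoc ℝ _ _ _), fun g x => rfl⟩⟩

theorem pb_fr (e : Emb Y B C) {P : Pb Y k E} (h : P.Ok) : (e.pb P).Fr :=
  have t := top e h
  ⟨t.1, fun g x hx => ⟨hx.1, (ok_act h g _ hx.2).1⟩, t.2.1,
    fun g x hx => Prod.ext rfl (ok_act h g _ hx.2).2, t.2.2,
    fun x hx g e => free (h.fr _ hx.1.2) (congrArg Prod.snd e)⟩

/-- **a homotopy of embeddings**, from a part of `e₀` to `e₁` -/
theorem pb_bd (H : Emb Y' (B × I) C) (e₀ : Emb Y B C) (e₁ : Emb Y' B C) {φ : Y' → Y}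
    (hφ : IsInducing φ)
    (a₀ : ∀ p, (p, 0) ∈ H.Ω → p ∈ e₀.Ω ∧ φ (H.π (p, 0)) = e₀.π p ∧ H.n (p, 0) = e₀.n p)
    (z₀ : ∀ p ∈ e₀.Ω, e₀.n p = 0 → e₀.π p ∈ range φ → (p, 0) ∈ H.Ω)
    (a₁ : ∀ p, (p, 1) ∈ H.Ω → p ∈ e₁.Ω ∧ H.π (p, 1) = e₁.π p ∧ H.n (p, 1) = e₁.n p)
    (z₁ : ∀ p ∈ e₁.Ω, e₁.n p = 0 → (p, 1) ∈ H.Ω) {P : Pb Y k E} (h : P.Ok)
    (z : ∀ x ∈ P.Z, x.1 ∈ range φ) : (e₀.pb P).Bd (e₁.pb (P.pull φ)) := by
  have h' := ok_pull hφ h z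
  have t := top H h'
  let r : (B × V k E) × I ≃ₜ (B × I) × V k E :=
    { toFun := fun x => ((x.1.1, x.2), x.1.2)
      invFun := fun x => ((x.1.1, x.2), x.1.2)
      left_inv := fun _ => rfl
      right_inv := fun _ => rfl }
  refine ⟨pb_fr e₀ h, pb_fr e₁ h', ⟨r ⁻¹' {z | z.1 ∈ H.Ω ∧ (H.π z.1, z.2) ∈ (P.pull φ).O},
    fun x => (H.n (r x).1, (P.pull φ).h (H.π (r x).1, (r x).2))⟩,
    ⟨t.1.preimage r.continuous, fun g x hx => ⟨hx.1, (ok_act h' g _ hx.2).1⟩,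
      t.2.1.comp r.continuous.continuousOn fun _ h => h,
      fun g x hx => Prod.ext rfl (ok_act h' g _ hx.2).2, r.isCompact_preimage.2 t.2.2,
      fun x hx g e => free (h'.fr _ hx.1.2) (congrArg Prod.snd e)⟩,
    ⟨fun x hx => ⟨(a₀ _ hx.1).1, (a₀ _ hx.1).2.1 ▸ hx.2⟩, fun x hx => ?_, fun x hx => ?_⟩,
    ⟨fun x hx => ⟨(a₁ _ hx.1).1, (a₁ _ hx.1).2.1 ▸ hx.2⟩, fun x hx => ?_, fun x hx => ?_⟩⟩
  · exact Prod.ext (a₀ _ hx.1).2.2 (congrArg (fun b => P.h (b, x.2)) (a₀ _ hx.1).2.1)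
  · have := z₀ _ hx.1.1 (congrArg Prod.fst hx.2) (z _ ⟨hx.1.2, congrArg Prod.snd hx.2⟩)
    exact ⟨this, show (φ (H.π (x.1, 0)), x.2) ∈ P.O from (a₀ _ this).2.1 ▸ hx.1.2⟩
  · exact Prod.ext (a₁ _ hx.1).2.2 (congrArg (fun b => P.h (φ b, x.2)) (a₁ _ hx.1).2.1)
  · have := z₁ _ hx.1.1 (congrArg Prod.fst hx.2)
    exact ⟨this, show (φ (H.π (x.1, 1)), x.2) ∈ P.O from (a₁ _ this).2.1 ▸ hx.1.2⟩
end

/-- `e` and `e'` give the same invariants (up to one sign) of problems over the range of `φ` -/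
structure Sim (φ : Y' → Y) (e' : Emb Y' B' C') (e : Emb Y B C) : Prop where
  ind : IsInducing φ
  dim : finrank ℝ B' + finrank ℝ C = finrank ℝ B + finrank ℝ C'
  eq : ∀ {m : ℕ} (J : AI m), finrank ℝ B = m + finrank ℝ C → ∀ k, 16 ≤ k → ∀ S : Pm.Sp,
    ∃ s : ℤˣ, ∀ P : Pb Y k S.E, P.Ok → (∀ x ∈ P.Z, x.1 ∈ range φ) →
      e.inv J k S P = s • e'.inv J k S (P.pull φ)

theorem Sim.trans {φ : Y' → Y} {ψ : Y'' → Y'} {e'' : Emb Y'' B'' C''} {e' : Emb Y' B' C'}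
    {e : Emb Y B C} (h' : Sim ψ e'' e') (h : Sim φ e' e) : Sim (φ ∘ ψ) e'' e := by
  refine ⟨h.ind.comp h'.ind, by have := h.dim; have := h'.dim; omega, fun J d k hk S => ?_⟩
  obtain ⟨s, hs⟩ := h.eq J d k hk S
  obtain ⟨s', hs'⟩ := h'.eq J (by have := h.dim; omega) k hk S
  refine ⟨s * s', fun P o z => ?_⟩
  have z' : ∀ x ∈ P.Z, x.1 ∈ range φ := fun x hx => range_comp_subset_range _ _ (z x hx)
  rw [hs P o z', hs' _ (ok_pull h.ind o z'), mul_smul]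
  · rfl
  · intro x hx
    obtain ⟨y, hy⟩ := z (φ x.1, x.2) hx
    exact ⟨y, h.ind.injective hy⟩

theorem Sim.symm {e' : Emb Y B' C'} {e : Emb Y B C} (h : Sim id e' e) : Sim id e e' := by
  refine ⟨h.ind, by have := h.dim; omega, fun J d k hk S => ?_⟩
  obtain ⟨s, hs⟩ := h.eq J (by have := h.dim; omega) k hk S
  exact ⟨s⁻¹, fun P o z => by rw [eq_inv_smul_iff]; exact (hs P o z).symm⟩

theorem Sim.pe {φ : Y' → Y} {e' : Emb Y' B' C'} {e : Emb Y B C} (h : Sim φ e' e) {m : ℕ}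
    (J : AI m) (d : finrank ℝ B = m + finrank ℝ C) {k : ℕ} (hk : 16 ≤ k) (S : Pm.Sp)
    {P : Pb Y k S.E} (o : P.Ok) (z : ∀ x ∈ P.Z, x.1 ∈ range φ) :
    Pe (e.inv J k S P) (e'.inv J k S (P.pull φ)) := by
  obtain ⟨s, hs⟩ := h.eq J d k hk S
  rcases Int.units_eq_one_or s with rfl | rfl <;> simp [Pe, hs P o z]

/-- homotopies of embeddings -/
theorem sim_ht (H : Emb Y' (B × I) C) (e₀ : Emb Y B C) (e₁ : Emb Y' B C) {φ : Y' → Y}
    (hφ : IsInducing φ)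
    (a₀ : ∀ p, (p, 0) ∈ H.Ω → p ∈ e₀.Ω ∧ φ (H.π (p, 0)) = e₀.π p ∧ H.n (p, 0) = e₀.n p)
    (z₀ : ∀ p ∈ e₀.Ω, e₀.n p = 0 → e₀.π p ∈ range φ → (p, 0) ∈ H.Ω)
    (a₁ : ∀ p, (p, 1) ∈ H.Ω → p ∈ e₁.Ω ∧ H.π (p, 1) = e₁.π p ∧ H.n (p, 1) = e₁.n p)
    (z₁ : ∀ p ∈ e₁.Ω, e₁.n p = 0 → (p, 1) ∈ H.Ω) : Sim φ e₁ e₀ :=
  ⟨hφ, rfl, fun J d k hk S => ⟨1, fun P o z =>
    (J.bd _ _ _ (gq hk) (adm d) _ _ (pb_bd H e₀ e₁ hφ a₀ z₀ a₁ z₁ o z)).trans (one_smul _ _).symm⟩⟩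

/-- parts of the base, smaller domains -/
theorem sim_opn (e₁ : Emb Y' B C) (e₀ : Emb Y B C) {φ : Y' → Y} (hφ : IsInducing φ)
    (a : ∀ p ∈ e₁.Ω, p ∈ e₀.Ω ∧ φ (e₁.π p) = e₀.π p ∧ e₁.n p = e₀.n p)
    (z : ∀ p ∈ e₀.Ω, e₀.n p = 0 → e₀.π p ∈ range φ → p ∈ e₁.Ω) : Sim φ e₁ e₀ :=
  sim_ht ⟨Prod.fst ⁻¹' e₁.Ω, fun p => e₁.π p.1, fun p => e₁.n p.1, e₁.op.preimage continuous_fst,
    e₁.cπ.comp continuousOn_fst fun _ h => h, e₁.cn.comp continuousOn_fst fun _ h => h,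
    fun K hK => by
      convert (e₁.cp K hK).prod (isCompact_univ (X := I)) using 1
      ext p; exact ⟨fun h => ⟨h, trivial⟩, fun h => h.1⟩⟩ e₀ e₁ hφ a z (fun p h => ⟨h, rfl, rfl⟩) fun p h _ => h

/-- transport of an embedding -/
def cm (e' : Emb Y B' C') (A : B ≃ₜ B') (L : C' ≃L[ℝ] C) : Emb Y B C :=
  ⟨A ⁻¹' e'.Ω, fun p => e'.π (A p), fun p => L (e'.n (A p)),
    e'.op.preimage A.continuous, e'.cπ.comp A.continuous.continuousOn fun _ h => h,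
    L.continuous.comp_continuousOn (e'.cn.comp A.continuous.continuousOn fun _ h => h),
    fun K hK => by
      convert A.isCompact_preimage.2 (e'.cp K hK) using 1
      ext p; exact and_congr_right fun _ => and_congr_left fun _ => L.map_eq_zero_iff⟩

/-- homeomorphisms of the ambient space, linear changes of the equations -/
theorem sim_iso (e' : Emb Y B' C') (e : Emb Y B C) (A : B ≃ₜ B') (L : C' ≃L[ℝ] C)
    (d : finrank ℝ B' = finrank ℝ B) (hΩ : ∀ p, p ∈ e.Ω ↔ A p ∈ e'.Ω)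
    (hπ : ∀ p ∈ e.Ω, e.π p = e'.π (A p)) (hn : ∀ p ∈ e.Ω, e.n p = L (e'.n (A p))) :
    Sim id e' e := by
  have l := L.toLinearEquiv.finrank_eq
  refine Sim.trans (e' := cm e' A L) (φ := id) (ψ := id) ⟨.id, by omega, fun J d' k hk S => ?_⟩
    (sim_opn _ e .id (fun p h => have h' := (hΩ p).2 h; ⟨h', (hπ p h').symm, (hn p h').symm⟩)
      fun p h _ _ => (hΩ p).1 h)
  obtain ⟨s, hs⟩ := J.iso (ck k) (XX B' k S.E) (XX C' k S.E) (XX B k S.E) (XX C k S.E) (gq hk)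
    (adm (by omega)) (adm d') ⟨A.prodCongr (.refl _), fun g x => rfl⟩
    ⟨L.prodCongr (.refl ℝ _), fun g x => rfl⟩
  exact ⟨s, fun P o _ => hs _ (pb_fr e' o)⟩

/-- more variables, as many more equations -/
theorem sim_stb (e' : Emb Y B C) (e : Emb Y (B × B') (C × B')) (hΩ : ∀ p, p ∈ e.Ω ↔ p.1 ∈ e'.Ω)
    (hπ : ∀ p, e.π p = e'.π p.1) (hn : ∀ p, e.n p = (e'.n p.1, p.2)) : Sim id e' e := by
  refine ⟨.id, by simp only [finrank_prod]; omega, fun {m} J d k hk S => ?_⟩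
  have d' : finrank ℝ B = m + finrank ℝ C := by simp only [finrank_prod] at d; omega
  let W := Rep.triv (Gk k) B'
  let a : ∀ (B : Type) [NormedAddCommGroup B] [NormedSpace ℝ B],
      ((B × V k S.E) × B') ≃L[ℝ] (B × B') × V k S.E := fun B _ _ =>
    (ContinuousLinearEquiv.prodAssoc ℝ B _ B').trans (((ContinuousLinearEquiv.refl ℝ B).prodCongr
      (.prodComm ℝ _ B')).trans (ContinuousLinearEquiv.prodAssoc ℝ B B' _).symm)
  have u : B ≃L[ℝ] (Fin m → ℝ) × C := ContinuousLinearEquiv.ofFinrankEq (by simp [d'])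
  have ad : Adm m ((XX B k S.E).prod W) ((XX C k S.E).prod W) :=
    ⟨⟨(((u.prodCongr (.refl ℝ (V k S.E))).trans (.prodAssoc ℝ _ _ _)).prodCongr
      (.refl ℝ B')).trans (.prodAssoc ℝ _ _ _), fun g x => rfl⟩⟩
  obtain ⟨s, hs⟩ := J.stb (ck k) (XX B k S.E) (XX C k S.E) W (gq hk) (adm d')
  obtain ⟨s', hs'⟩ := J.iso (ck k) (XX (B × B') k S.E) (XX (C × B') k S.E) _ _ (gq hk) (adm d) ad
    ⟨(a B).toHomeomorph, fun g x => rfl⟩ ⟨(a C).symm, fun g x => rfl⟩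
  refine ⟨s'⁻¹ * s, fun P o _ => ?_⟩
  rw [mul_smul, eq_inv_smul_iff]
  refine (hs' _ (pb_fr e o)).symm.trans ((congrArg (J.ν (ck k) _ _) ?_).trans (hs _ (pb_fr e' o)))
  simp only [Emb.pb, PB.iso, PB.st, PB.prod, PB.id, hΩ, hπ, hn]
  congr 1
  exact Set.ext fun x => ⟨fun h => ⟨h, trivial⟩, fun h => h.1⟩

end Crest.Agent.N218.In.Ch

end
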