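import Crest.Agent.N218.In.Kit
import Crest.Agent.N218.In.Emb

/-! # Row 218, block INST (helper21): constant loops bound -/

set_option autoImplicit false

open Set Topology Module unitInterval

noncomputable section

namespace Crest.Agent.N218.In

open K Pm

variable {B C : Type} [NormedAddCommGroup B] [NormedSpace ℝ B] [FiniteDimensional ℝ B]
  [NormedAddCommGroup C] [NormedSpace ℝ C] [FiniteDimensional ℝ C] {k : ℕ} {E : Type}
  [NormedAddCommGroup E] [NormedSpace ℝ E] [FiniteDimensional ℝ E]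

/-- a problem times a moving plane curve -/
def xc (F : PB (XX B k E).ls (XX C k E)) (W : Set (ℂ × I)) (φ : ℂ × I → ℝ) :
    PB (XX (B × ℂ) k E).ls.cy (XX (C × ℝ) k E) :=
  PB.fam {z : ((B × ℂ) × V k E) × I | (z.1.1.1, z.1.2) ∈ F.O ∧ (z.1.1.2, z.2) ∈ W}
    fun z : ((B × ℂ) × V k E) × I =>
      (((F.f (z.1.1.1, z.1.2)).1, φ (z.1.1.2, z.2)), (F.f (z.1.1.1, z.1.2)).2)

theorem xc_ok {F : PB (XX B k E).ls (XX C k E)} (h : F.Fr) {W : Set (ℂ × I)} {φ : ℂ × I → ℝ}
    (o : IsOpen W) (c : ContinuousOn φ W) (z : IsCompact {w ∈ W | φ w = 0}) :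
    (xc F W φ).Ok (Prod.fst ⁻¹' (XX (B × ℂ) k E).ls.fr) := by
  have a : Continuous fun z : ((B × ℂ) × V k E) × I => ((z.1.1.1, z.1.2) : B × V k E) := by fun_prop
  have b : Continuous fun z : ((B × ℂ) × V k E) × I => (z.1.1.2, z.2) := by fun_prop
  have f : ContinuousOn (fun z : ((B × ℂ) × V k E) × I => (F.f (z.1.1.1, z.1.2) : C × V k E))
      {z | (z.1.1.1, z.1.2) ∈ F.O ∧ (z.1.1.2, z.2) ∈ W} := h.ct.comp a.continuousOn fun _ u => u.1
  refine PB.fam_ok ((h.op.preimage a).inter (o.preimage b))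
    (fun g x t u => ⟨h.inv g (x.1.1, x.2) u.1, u.2⟩)
    ((f.fst.prodMk (c.comp b.continuousOn fun _ u => u.2)).prodMk f.snd) (fun g x t u => ?_) ?_
    fun x t u v g e => h.fr (a := (x.1.1, x.2)) ⟨u.1, Prod.ext (congrArg (·.1.1) v)
      (congrArg (·.2) v)⟩ g (Prod.ext rfl (congrArg (·.2) e))
  · have := h.eq g (x.1.1, x.2) u.1
    exact Prod.ext (Prod.ext (congrArg (·.1) this) rfl) (congrArg (·.2) this)
  · have := (h.cp.prod z).image (f := fun p : (B × V k E) × ℂ × I =>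
      ((((p.1.1, p.2.1), p.1.2), p.2.2) : ((B × ℂ) × V k E) × I)) (by fun_prop)
    refine (congrArg IsCompact (Set.ext fun p => Iff.intro ?_ ?_)).mp this
    swap
    · exact fun ⟨u, v⟩ => ⟨((p.1.1.1, p.1.2), (p.1.1.2, p.2)), ⟨⟨u.1, Prod.ext
        (congrArg (·.1.1) v) (congrArg (·.2) v)⟩, u.2, congrArg (·.1.2) v⟩, rfl⟩
    rintro ⟨q, ⟨⟨u, v⟩, u', v'⟩, rfl⟩
    exact ⟨⟨u, u'⟩, Prod.ext (Prod.ext (congrArg (·.1) v) v') (congrArg (·.2) v)⟩

theorem lg_lo (w : ℂ) : -1 < Real.log (max ‖w‖ (1 / 2)) := by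
  have := Real.log_le_log (by norm_num) (le_max_right ‖w‖ (1 / 2))
  rw [one_div, Real.log_inv] at this
  rw [one_div]
  linarith [Real.log_two_lt_d9]

theorem cst : CST := fun {m} J Y B C _ _ _ _ _ _ _ _ e hd c hc k S P hk h => by
  have d : finrank ℝ (B × ℂ) = m + finrank ℝ (C × ℝ) := by
    simp only [finrank_prod, Complex.finrank_real_complex, finrank_self]; omega
  have F := e.pb_fr h
  have p : ∀ w : ℂ, 0 < max ‖w‖ (1 / 2) := fun w => lt_max_of_lt_right (by norm_num)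
  have ct : Continuous fun w : ℂ × I => Real.log (max ‖w.1‖ (1 / 2)) + w.2 :=
    ((continuous_fst.norm.max continuous_const).log fun w => (p w.1).ne').add
      (continuous_subtype_val.comp continuous_snd)
  have one : ∀ w : ℂ, Real.log (max ‖w‖ (1 / 2)) = 0 → ‖w‖ = 1 := fun w z => by
    rcases max_eq_iff.1 (Real.eq_one_of_pos_of_log_eq_zero (p w) z) with a | a
    exacts [a.1, by norm_num at a]
  have H := xc_ok F (W := {w | 1 / 2 < ‖w.1‖ ∨ 0 < (w.2 : ℝ)})
    (φ := fun w => Real.log (max ‖w.1‖ (1 / 2)) + w.2)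
    ((isOpen_lt continuous_const continuous_fst.norm).union
      (isOpen_lt continuous_const (continuous_subtype_val.comp continuous_snd))) ct.continuousOn (by
      refine ((isCompact_closedBall (0 : ℂ) 1).prod isCompact_univ).of_isClosed_subset ?_
        fun w u => ⟨mem_closedBall_zero_iff.2 ((le_max_left _ _).trans
          ((Real.log_nonpos_iff (p w.1).le).1 (by linarith [u.2, w.2.2.1]))), trivial⟩
      convert isClosed_eq ct continuous_const using 1
      ext w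
      refine ⟨fun u => u.2, fun u => ⟨or_iff_not_imp_right.2 fun z => ?_, u⟩⟩
      have : (w.2 : ℝ) = 0 := le_antisymm (not_lt.1 z) w.2.2.1
      rw [one w.1 (by simpa [this] using u)]; norm_num)
  have G := xc_ok F (W := {w | w.1 ≠ 0}) (φ := fun w => Real.log ‖w.1‖)
    (isOpen_ne.preimage continuous_fst) (log_on.comp continuousOn_fst fun _ u => u) (by
      convert (isCompact_sphere (0 : ℂ) 1).prod (isCompact_univ (X := I)) using 1
      ext w
      refine ⟨fun u => ⟨mem_sphere_zero_iff_norm.2 ((log_zero u.1).1 u.2), trivial⟩, fun u => ?_⟩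
      have a := mem_sphere_zero_iff_norm.1 u.1
      exact ⟨fun z => by simp [show w.1 = 0 from z] at a, by rw [a, Real.log_one]⟩)
  have E0 : c.pb (P.pull Prod.fst) =
      (xc (e.pb P) {w | w.1 ≠ 0} fun w => Real.log ‖w.1‖).sl (0 : I) := by
    unfold Emb.pb
    simp only [hc.Ω, hc.π, hc.n]
    congr 1
    ext z
    exact ⟨fun u => ⟨⟨u.1.1, u.2⟩, u.1.2⟩, fun u => ⟨⟨u.1.1, u.2⟩, u.1.2⟩⟩
  rw [Emb.inv, E0]
  refine (J.bd _ _ _ (gq hk) (adm d k S.E) _ _ ⟨G.sl 0, H.sl 1, _, H, ⟨fun z u => ⟨u.1, ?_⟩,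
    fun z u => ?_, fun z u => ⟨u.1.1, .inl ?_⟩⟩, PB.Le.rfl' _⟩).trans
    (J.emp _ _ _ (gq hk) (adm d k S.E) _ (H.sl 1) (eq_empty_of_forall_notMem fun z u => ?_))
  · have : 1 / 2 < ‖z.1.2‖ := u.2.resolve_right (lt_irrefl _)
    exact norm_pos_iff.1 (by linarith)
  · have : 1 / 2 < ‖z.1.2‖ := u.2.resolve_right (lt_irrefl _)
    exact Prod.ext (Prod.ext rfl ((add_zero _).trans (congrArg _ (max_eq_left this.le)))) rfl
  · have : ‖z.1.2‖ = 1 := (log_zero u.1.2).1 (congrArg (·.1.2) u.2)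
    change 1 / 2 < ‖z.1.2‖
    rw [this]; norm_num
  · have : Real.log (max ‖z.1.2‖ (1 / 2)) + 1 = 0 := congrArg (·.1.2) u.2
    linarith [lg_lo z.1.2]

end Crest.Agent.N218.In

end
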