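import Crest.Agent.N218.In.Pl
import Crest.Agent.N218.In.Emb

/-! # Row 218, block INST (helper66): the pair of pants -/

set_option autoImplicit false
set_option linter.unusedVariables false
set_option linter.unusedSectionVars false

open Set Topology Module unitInterval Complex

noncomputable section

namespace Crest.Agent.N218.In

open K Pm

namespace Pn

theorem cl_c : Continuous cl := by unfold cl; fun_prop
theorem cl_0 {t : ℝ} (h : t ≤ 0) : cl t = 0 := max_eq_left ((min_le_right _ _).trans h)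
theorem cl_1 {t : ℝ} (h : 1 ≤ t) : cl t = 1 := by rw [cl, min_eq_left h, max_eq_right zero_le_one]
theorem cl_m (t : ℝ) : cl t ∈ Icc (0 : ℝ) 1 := ⟨le_max_left _ _, max_le zero_le_one (min_le_left _ _)⟩

/-- functions of the argument -/
theorem arg_c {g : ℝ → ℝ} (c : Continuous g) (h : g (-Real.pi) = g Real.pi) :
    ContinuousOn (fun w : ℂ => g w.arg) {w | w ≠ 0} := by
  have : Fact (0 < 2 * Real.pi) := ⟨by positivity⟩
  have p : -Real.pi + 2 * Real.pi = Real.pi := by ring
  have e : (fun w : ℂ => g w.arg) = AddCircle.liftIoc (2 * Real.pi) (-Real.pi) g ∘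
      ((↑) ∘ arg : ℂ → Real.Angle) := funext fun w =>
    (AddCircle.liftIoc_coe_apply (by rw [p]; exact arg_mem_Ioc w)).symm
  rw [e]
  exact fun w hw => ((AddCircle.liftIoc_continuous (by rw [p, h]) c.continuousOn).continuousAt.comp
    (continuousAt_arg_coe_angle hw)).continuousWithinAt

/-- the parameter near the hole -/
def aa (w : ℂ) : ℝ := cl (w.arg / Real.pi + 1 / 2)
/-- the parameter of the cut problem -/
def kp (w : ℂ) : ℝ := cl (‖w‖ - 2) * w.im
/-- the parameter -/
def gm (w : ℂ) : ℝ := kp w + cl (3 - w.re) * aa w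

theorem kp_c : Continuous kp := (cl_c.comp (by fun_prop)).mul continuous_im
theorem gm_c : ContinuousOn gm slitPlane := kp_c.continuousOn.add
  ((cl_c.comp (by fun_prop)).continuousOn.mul (cl_c.comp_continuousOn
    ((ContinuousOn.div_const (fun w h => (continuousAt_arg h).continuousWithinAt)
      _).add continuousOn_const)))

theorem kp_far {w : ℂ} (h : 3 ≤ |w.re|) : kp w = w.im := by
  rw [kp, cl_1 (by linarith [abs_re_le_norm w]), one_mul]
theorem gm_r {w : ℂ} (h : 3 ≤ w.re) : gm w = w.im := by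
  rw [gm, kp_far (h.trans (le_abs_self _)), cl_0 (by linarith), zero_mul, add_zero]
theorem gm_in {w : ℂ} (h : ‖w‖ < 2) : gm w = aa w := by
  rw [gm, kp, cl_0 (by linarith), cl_1 (by linarith [re_le_norm w]), zero_mul, one_mul, zero_add]
theorem kp_bd (w : ℂ) : |w.im| ≤ |kp w| + 3 := by
  rcases le_total 3 ‖w‖ with h | h
  · rw [kp, cl_1 (by linarith), one_mul]; linarith
  · linarith [abs_im_le_norm w, abs_nonneg (kp w)]
theorem gm_bd (w : ℂ) : |w.im| ≤ |gm w| + 4 := by
  have a := kp_bd w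
  have b := cl_m (3 - w.re)
  have c := cl_m (w.arg / Real.pi + 1 / 2)
  have d : |kp w| ≤ |gm w| + 1 := by
    have := mul_nonneg b.1 c.1
    have := mul_le_one₀ b.2 c.1 c.2
    have := le_abs_self (gm w)
    have := neg_abs_le (gm w)
    rw [gm, aa] at *
    exact abs_le.2 ⟨by linarith, by linarith⟩
  linarith

theorem gm_l {w : ℂ} (h : w.re < 0) :
    gm w = (if kp w ≤ 0 then kp w else kp w + 1) ∨ (gm w = 1 ∧ kp w = 0) := by
  have a : ¬ |w.arg| ≤ Real.pi / 2 := fun a => h.not_ge (abs_arg_le_pi_div_two_iff.1 a)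
  have p := Real.pi_pos
  have b := (cl_m (‖w‖ - 2)).1
  rw [gm, cl_1 (by linarith), one_mul, aa]
  rcases lt_or_ge w.im 0 with i | i
  · have := arg_neg_iff.2 i
    rw [abs_of_neg this] at a
    rw [cl_0 (by
      have : w.arg / Real.pi ≤ -(1 / 2) := by rw [div_le_iff₀ p]; linarith
      linarith), if_pos (show kp w ≤ 0 from mul_nonpos_of_nonneg_of_nonpos b i.le), add_zero]
    exact Or.inl rfl
  · have := arg_nonneg_iff.2 i
    rw [abs_of_nonneg this] at a
    rw [cl_1 (by
      have : 1 / 2 ≤ w.arg / Real.pi := by rw [le_div_iff₀ p]; linarith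
      linarith)]
    have c : 0 ≤ kp w := mul_nonneg b i
    rcases c.eq_or_lt with c | c
    · exact Or.inr ⟨by rw [← c, zero_add], c.symm⟩
    · exact Or.inl (by rw [if_neg c.not_ge])

theorem nrm (w : ℂ) : ‖w‖ ≤ |w.re| + |w.im| := norm_le_abs_re_add_abs_im w

theorem bdd {A : Set (ℂ × I)} {γ : ℂ × I → ℝ} (h : ∀ p ∈ A, ‖p.1‖ ≤ |γ p| + 8) (K : Set ℝ)
    (k : IsCompact K) : ∃ M : ℝ, ∀ p ∈ A, γ p ∈ K → ‖p.1‖ ≤ M :=
  have ⟨M, m⟩ := k.isBounded.exists_norm_le
  ⟨M + 8, fun p a b => (h p a).trans (by linarith [m _ b, Real.norm_eq_abs (γ p)])⟩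

variable {Y B C : Type} [TopologicalSpace Y] [T2Space Y] [NormedAddCommGroup B]
  [NormedSpace ℝ B] [FiniteDimensional ℝ B] [NormedAddCommGroup C] [NormedSpace ℝ C]
  [FiniteDimensional ℝ C] {k : ℕ} {E : Type} [NormedAddCommGroup E] [NormedSpace ℝ E]
  [FiniteDimensional ℝ E] (e : Emb Y B C) {P : Pb (Y × ℝ) k E} {Q : Pb (Y × UnitAddCircle) k E}

/-- translation of the line -/
theorem tr (h : P.Ok) {c : ℝ} (hc : |c| ≤ 4) :
    (e.pl P univ im re).Bd (e.pl P univ im fun w => w.re - c) := by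
  have := e.pl_bd (D := univ) (A := {p | p.1.re - p.2 * c = 0}) (γ := fun p => p.1.im)
    (φ := fun p => p.1.re - p.2 * c) h isOpen_univ (by fun_prop) (by fun_prop)
    (isClosed_eq (by fun_prop) continuous_const) (subset_univ _) (fun _ _ a => a)
    (bdd fun p a => by
      have a : p.1.re = p.2 * c := sub_eq_zero.1 a
      have := nrm p.1
      rw [a, abs_mul, abs_of_nonneg p.2.2.1] at this
      nlinarith [p.2.2.1, p.2.2.2, abs_nonneg c])
  simpa using this

theorem ag01 (l : P.Lp Q) : Emb.Ag P P 1 0 := fun x y => by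
  have a := l x 0 y ⟨le_rfl, zero_le_one⟩
  have b := l x 1 y ⟨zero_le_one, le_rfl⟩
  rw [AddCircle.coe_period] at b
  rw [AddCircle.coe_zero] at a
  exact ⟨b.1.trans a.1.symm, fun u => (b.2 u).trans (a.2 (a.1.2 (b.1.1 u))).symm⟩

theorem ag_cut (l : P.Lp Q) {w : ℂ} (h : w.re < 0) : Emb.Ag P P.cut (gm w) (kp w) := by
  rcases gm_l h with a | ⟨a, b⟩
  · rw [a]; exact Emb.Ag.rfl' P _
  · rw [a, b]
    have := ag01 l
    rw [← if_pos (le_refl (0 : ℝ)) (t := (0 : ℝ)) (e := 0 + 1)] at this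
    exact this

/-- the pants -/
theorem pants (h : P.Ok) (h' : P.cut.Ok) (l : P.Lp Q) :
    (e.pl P {w | w ≠ 0} gm fun w => min (w.re - 4) (‖w‖ - 1)).Bd
      (e.pl P {w | w ≠ 0} gm fun w => min (w.re + 4) (‖w‖ - 1)) := by
  let φ : ℂ × I → ℝ := fun p => min (p.1.re - 4 + 8 * p.2) (‖p.1‖ - 1)
  have c : Continuous φ := by fun_prop
  have c1 : Continuous fun p : ℂ × I => -|p.1.im| := by fun_prop
  have c2 : Continuous fun p : ℂ × I => p.1.re := by fun_prop
  have z : ∀ p, φ p = 0 → 1 ≤ ‖p.1‖ ∧ |p.1.re| ≤ 4 := fun p a => by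
    have := abs_re_le_norm p.1
    rcases min_eq_iff.1 a with b | b
    · exact ⟨by linarith [b.2], abs_le.2 ⟨by linarith [p.2.2.2, b.1], by linarith [p.2.2.1, b.1]⟩⟩
    · exact ⟨by linarith [b.1], by linarith [b.1]⟩
  have := e.pl_bd2 (D := {p | p.1 ≠ 0}) (D₁ := {p | p.1 ∈ slitPlane}) (D₂ := {p | p.1.re < 0})
    (A := {p | φ p = 0 ∧ -|p.1.im| ≤ p.1.re}) (A' := {p | φ p = 0 ∧ p.1.re ≤ -|p.1.im|})
    (γ := fun p => gm p.1) (γ' := fun p => kp p.1) (φ := φ) h h'
    (Set.ext fun p => ⟨fun a => by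
      by_contra b
      simp only [mem_union, mem_ofPred, mem_slitPlane_iff, not_or, not_lt, not_not] at b
      exact a (Complex.ext (b.1.1.antisymm b.2) b.1.2), fun a => a.elim slitPlane_ne_zero
        fun a b => by simp [show p.1 = 0 from b] at a⟩)
    (isOpen_slitPlane.preimage continuous_fst) (isOpen_lt (by fun_prop) continuous_const)
    (gm_c.comp continuous_fst.continuousOn fun _ a => a) (kp_c.comp continuous_fst).continuousOn
    (fun p a => ag_cut l a) c
    ((isClosed_eq c continuous_const).inter (isClosed_le c1 c2))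
    ((isClosed_eq c continuous_const).inter (isClosed_le c2 c1))
    (fun p a => mem_slitPlane_iff.2 (or_iff_not_imp_right.2 fun b => by
      have b : p.1.im = 0 := not_not.1 b
      have := nrm p.1
      have c := a.2
      rw [b, abs_zero] at this c
      rw [abs_of_nonneg (by linarith)] at this
      linarith [(z p a.1).1]))
    (fun p a => by
      have := nrm p.1
      have c := a.2
      have d := abs_nonneg p.1.im
      rw [abs_of_nonpos (by linarith)] at this
      change p.1.re < 0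
      linarith [(z p a.1).1])
    (fun p a => (le_total _ _).imp (fun b => ⟨a, b⟩) fun b => ⟨a, b⟩)
    (bdd fun p a => by linarith [nrm p.1, gm_bd p.1, (z p a.1).2])
    (bdd fun p a => by linarith [nrm p.1, kp_bd p.1, (z p a.1).2])
  convert this using 4 <;> simp
  ring

/-- the circle -/
theorem circ (h : Q.Ok) : (e.pl Q {w | w ≠ 0} (fun w => (aa w : UnitAddCircle)) fun w => ‖w‖ - 1).Bd
    (e.pl Q {w | w ≠ 0} ang fun w => Real.log ‖w‖) := by
  let g : ℝ → ℝ := fun t => cl (t / Real.pi + 1 / 2) - t / (2 * Real.pi)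
  have p := Real.pi_pos
  have c : ContinuousOn (fun w : ℂ => g w.arg) {w | w ≠ 0} :=
    arg_c ((cl_c.comp (by fun_prop)).sub (by fun_prop)) (by
      simp only [g]
      rw [neg_div, div_self p.ne', cl_0 (by norm_num), cl_1 (by norm_num)]
      field_simp
      ring)
  have f : ContinuousOn (Prod.fst : ℂ × I → ℂ) {p | p.1 ≠ 0} := continuous_fst.continuousOn
  have := e.pl_bd (D := {p | p.1 ≠ 0}) (A := {p | ‖p.1‖ = 1})
    (γ := fun p => ang p.1 + (((1 - p.2) * g p.1.arg : ℝ) : UnitAddCircle))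
    (φ := fun p => (1 - p.2) * (‖p.1‖ - 1) + p.2 * Real.log ‖p.1‖) h
    (isOpen_ne.preimage continuous_fst)
    ((ang_on.comp f fun _ a => a).add ((AddCircle.continuous_mk' 1).comp_continuousOn
      (ContinuousOn.mul (by fun_prop) (c.comp f fun _ a => a))))
    (ContinuousOn.add (by fun_prop) (ContinuousOn.mul (by fun_prop) (log_on.comp f fun _ a => a)))
    (isClosed_eq (by fun_prop) continuous_const) (fun p a b => by simp [show p.1 = 0 from b] at a)
    (fun q a b => by
      have a := norm_pos_iff.2 a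
      have u := q.2.2.1
      have v := q.2.2.2
      by_contra n
      rcases lt_or_gt_of_ne n with n | n
      · have := Real.log_neg a n
        rcases u.eq_or_lt with u | u <;> nlinarith
      · have := Real.log_pos n
        rcases u.eq_or_lt with u | u <;> nlinarith)
    fun K _ => ⟨1, fun p a _ => a.le⟩
  convert this using 3 <;> simp
  rw [ang, ← AddCircle.coe_add]
  simp [g, aa]

/-- exchange of the coordinates -/
def sw : ℂ ≃ₜ ℂ :=
  ⟨⟨fun w => w.im + w.re * Complex.I, fun w => w.im + w.re * Complex.I,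
    fun w => Complex.ext (by simp) (by simp), fun w => Complex.ext (by simp) (by simp)⟩,
    by fun_prop, by fun_prop⟩

end Pn

open Pn in
/-- **the pair of pants** -/
theorem pan : PAN := by
  intro m J Y B C _ _ _ _ _ _ _ _ e hd l c hl hc k S P Q hk hP hC hQ lp
  have d : finrank ℝ (B × ℂ) = m + finrank ℝ (C × ℝ) := by
    simp only [finrank_prod, Complex.finrank_real_complex, finrank_self]; omega
  have g := gq hk
  have a := adm d k S.E
  have bd := J.bd _ _ _ g a
  obtain ⟨s, hs⟩ := J.iso _ _ _ _ _ g a a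
    ⟨((Homeomorph.refl B).prodCongr sw).prodCongr (Homeomorph.refl _), fun _ _ => rfl⟩
    ⟨.refl ℝ _, fun _ _ => rfl⟩
  have L : ∀ R : Pb (Y × ℝ) k S.E, R.Ok → l.inv J k S R = s • J.ν _ _ _ (e.pl R univ im re) :=
    fun R r => by
      rw [← hs _ (tr e r (c := 0) (by simp)).1]
      refine congrArg (J.ν _ _ _) (congrArg₂ PB.mk (Set.ext fun z => ?_) (funext fun z => ?_))
      · obtain ⟨⟨b, w⟩, y⟩ := z
        change _ ∧ _ ↔ (b ∈ e.Ω ∧ True) ∧ ((e.π b, (sw w).im), y) ∈ R.O
        rw [hl.Ω, hl.π, and_true, show (sw w).im = w.re by simp [sw]]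
        rfl
      · obtain ⟨⟨b, w⟩, y⟩ := z
        change (l.n _, R.h (l.π _, y)) = ((e.n b, (sw w).re), R.h ((e.π b, (sw w).im), y))
        rw [hl.n, hl.π]
        simp [sw]
  have Cc : c.inv J k S Q = J.ν _ _ _ (e.pl Q {w | w ≠ 0} ang fun w => Real.log ‖w‖) :=
    congrArg (J.ν _ _ _) (congrArg₂ PB.mk (Set.ext fun z => by
      change _ ∧ _ ↔ _; rw [hc.Ω, hc.π]; rfl)
      (funext fun z => by rw [hc.n, hc.π]))
  have p := pants e hP hC lp
  have t₁ := tr e hP (c := 4) (by norm_num)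
  have t₂ := tr e hC (c := -4) (by norm_num)
  have q := circ e hQ
  have ne : ∀ w : ℂ, 3 < |w.re| → w ≠ 0 := fun w h e => by norm_num [e] at h
  have o₁ := e.pl_on p.1 t₁.2.1 (U := {w | 3 < w.re}) (isOpen_lt continuous_const continuous_re)
    (fun w h => ⟨ne w (h.trans_le (le_abs_self _)), trivial,
      by rw [gm_r h.le]; exact Emb.Ag.rfl' _ _, min_eq_left (by linarith [re_le_norm w])⟩)
    fun w _ h => by change 3 < w.re; linarith
  have o₂ := e.pl_on p.2.1 t₂.2.1 (U := {w | w.re < -3}) (isOpen_lt continuous_re continuous_const)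
    (fun w h => have u : 3 < |w.re| := lt_abs.2 (Or.inr (by linarith [h.out]))
      ⟨ne w u, trivial, by rw [← kp_far u.le]; exact ag_cut lp (by linarith [h.out]), by
        rw [min_eq_left (by linarith [abs_re_le_norm w, h.out]), sub_neg_eq_add]⟩)
    fun w _ h => by change w.re < -3; linarith
  have o₃ := e.pl_on p.2.1 q.1 (U := {w | w ≠ 0 ∧ ‖w‖ < 2})
    (isOpen_ne.inter (isOpen_lt continuous_norm continuous_const))
    (fun w h => ⟨h.1, h.1, by rw [gm_in h.2]; exact fun x y => lp x _ y (cl_m _),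
      min_eq_right (by linarith [abs_re_le_norm w, neg_abs_le w.re, h.2])⟩)
    fun w u h => ⟨u, by linarith⟩
  have o₀ := (PB.on_le (e.pl_z (P := P) (γ := gm) (D := {w | w ≠ 0}) (U := {w | 3 < w.re})
    (φ := fun w => min (w.re - 4) (‖w‖ - 1)) fun w _ h => by
      rw [min_eq_left (by linarith [re_le_norm w])] at h
      change 3 < w.re
      linarith)).hb o₁.1 p.1
  have sm := J.sum _ _ _ g a _ _ _ p.2.1 o₂.1 o₃.1 (disjoint_left.2 fun z u v => by
      have u : z.1.2.re < -3 := u
      linarith [abs_re_le_norm z.1.2, neg_abs_le z.1.2.re, v.2])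
    (e.pl_z (U := {w | w.re < -3} ∪ {w | w ≠ 0 ∧ ‖w‖ < 2}) fun w u h => by
      rcases min_eq_iff.1 h with b | b
      · exact Or.inl (by change w.re < -3; linarith [b.1])
      · exact Or.inr ⟨u, by linarith [b.1]⟩)
  rw [L P hP, L _ hC, Cc, bd _ _ t₁, bd _ _ t₂, ← bd _ _ o₁, bd _ _ o₀, bd _ _ p, sm, bd _ _ o₂,
    bd _ _ o₃, bd _ _ q]
  rcases Int.units_eq_one_or s with rfl | rfl
  · exact Or.inl (by rw [one_smul, one_smul, add_sub_cancel_left])
  · exact Or.inr (by rw [Units.neg_smul, Units.neg_smul, one_smul, one_smul]; abel)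

end Crest.Agent.N218.In

end
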