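import Crest.Agent.N218.In.Kit

/-! # Row 218, block INST (helper66): problems over the plane and their bordisms -/

set_option autoImplicit false
set_option linter.unusedVariables false
set_option linter.unusedSectionVars false

open Set Topology Module unitInterval

noncomputable section

namespace Crest.Agent.N218.In

open K Pm

namespace Emb
variable {Y B C T T' : Type} [TopologicalSpace Y] [T2Space Y] [NormedAddCommGroup B]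
  [NormedSpace ℝ B] [FiniteDimensional ℝ B] [NormedAddCommGroup C] [NormedSpace ℝ C]
  [FiniteDimensional ℝ C] [TopologicalSpace T] [T2Space T] [TopologicalSpace T'] [T2Space T']
  {k : ℕ} {E : Type} [NormedAddCommGroup E] [NormedSpace ℝ E] [FiniteDimensional ℝ E]
  (e : Emb Y B C)

/-- a problem over `Y × T` spread over a part `D` of the plane by `γ`, with equation `φ` -/
def pl (P : Pb (Y × T) k E) (D : Set ℂ) (γ : ℂ → T) (φ : ℂ → ℝ) :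
    PB (XX (B × ℂ) k E).ls (XX (C × ℝ) k E) :=
  ⟨{z : (B × ℂ) × V k E | (z.1.1 ∈ e.Ω ∧ z.1.2 ∈ D) ∧ ((e.π z.1.1, γ z.1.2), z.2) ∈ P.O},
    fun z : (B × ℂ) × V k E => ((e.n z.1.1, φ z.1.2), P.h ((e.π z.1.1, γ z.1.2), z.2))⟩

/-- the domain of a family -/
def plO (P : Pb (Y × T) k E) (D : Set (ℂ × I)) (γ : ℂ × I → T) : Set (((B × ℂ) × V k E) × I) :=
  {z | (z.1.1.1 ∈ e.Ω ∧ (z.1.1.2, z.2) ∈ D) ∧ ((e.π z.1.1.1, γ (z.1.1.2, z.2)), z.1.2) ∈ P.O}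
/-- the map of a family -/
def plF (P : Pb (Y × T) k E) (γ : ℂ × I → T) (φ : ℂ × I → ℝ) (z : ((B × ℂ) × V k E) × I) :
    (C × ℝ) × V k E :=
  ((e.n z.1.1.1, φ (z.1.1.2, z.2)), P.h ((e.π z.1.1.1, γ (z.1.1.2, z.2)), z.1.2))

variable {P : Pb (Y × T) k E} {D A : Set (ℂ × I)} {γ : ℂ × I → T} {φ : ℂ × I → ℝ}

theorem pl_loc (h : P.Ok) (hD : IsOpen D) (hγ : ContinuousOn γ D) (hφ : ContinuousOn φ D) :
    IsOpen (e.plO P D γ) ∧ ContinuousOn (e.plF P γ φ) (e.plO P D γ) := by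
  have a : Continuous fun z : ((B × ℂ) × V k E) × I => z.1.1.1 := by fun_prop
  have b : Continuous fun z : ((B × ℂ) × V k E) × I => (z.1.1.2, z.2) := by fun_prop
  have c : ContinuousOn (fun z : ((B × ℂ) × V k E) × I =>
      ((e.π z.1.1.1, γ (z.1.1.2, z.2)), z.1.2)) {z | z.1.1.1 ∈ e.Ω ∧ (z.1.1.2, z.2) ∈ D} :=
    ((e.cπ.comp a.continuousOn fun _ u => u.1).prodMk
      (hγ.comp b.continuousOn fun _ u => u.2)).prodMk (by fun_prop)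
  exact ⟨c.isOpen_inter_preimage ((e.op.preimage a).inter (hD.preimage b)) h.op,
    ((e.cn.comp a.continuousOn fun _ u => u.1.1).prodMk
      (hφ.comp b.continuousOn fun _ u => u.1.2)).prodMk
      (h.ct.comp (c.mono fun _ u => u.1) fun _ u => u.2)⟩

theorem pl_cpt (h : P.Ok) (hA : IsClosed A) (hγ : ContinuousOn γ A)
    (bd : ∀ K, IsCompact K → ∃ M : ℝ, ∀ p ∈ A, γ p ∈ K → ‖p.1‖ ≤ M) :
    ∃ K', IsCompact K' ∧ K' ⊆ e.plO P A γ ∧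
      ∀ z ∈ e.plO P A γ, (e.plF P γ φ z).1.1 = 0 → (e.plF P γ φ z).2 = 0 → z ∈ K' := by
  obtain ⟨M, hM⟩ := bd _ (h.cp.image continuous_fst.snd)
  have k1 := ((e.cp _ (h.cp.image continuous_fst.fst)).prod
    (((isCompact_closedBall (0 : ℂ) M).prod (isCompact_univ (X := I))).inter_right hA)).prod
    (h.cp.image continuous_snd)
  have c : ContinuousOn (fun z : (B × ℂ × I) × V k E => ((e.π z.1.1, γ z.1.2), z.2))
      {z | z.1.1 ∈ e.Ω ∧ z.1.2 ∈ A} :=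
    ((e.cπ.comp continuous_fst.fst.continuousOn fun _ u => u.1).prodMk
      (hγ.comp continuous_fst.snd.continuousOn fun _ u => u.2)).prodMk (by fun_prop)
  have k2 := k1.of_isClosed_subset ((c.mono fun _ a => ⟨a.1.1.1, a.1.2.2⟩).preimage_isClosed_of_isClosed
    k1.isClosed h.cp.isClosed) inter_subset_left
  refine ⟨_, k2.image (f := fun z : (B × ℂ × I) × V k E => (((z.1.1, z.1.2.1), z.2), z.1.2.2))
    (by fun_prop), ?_, fun z u a b => ?_⟩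
  · rintro _ ⟨z, u, rfl⟩
    exact ⟨⟨u.1.1.1.1, u.1.1.2.2⟩, u.2.1⟩
  · have v : ((e.π z.1.1.1, γ (z.1.1.2, z.2)), z.1.2) ∈ P.Z := ⟨u.2, b⟩
    exact ⟨((z.1.1.1, z.1.1.2, z.2), z.1.2), ⟨⟨⟨⟨u.1.1, a, _, v, rfl⟩,
      ⟨mem_closedBall_zero_iff.2 (hM _ u.1.2 ⟨_, v, rfl⟩), trivial⟩, u.1.2⟩, _, v, rfl⟩, v⟩, rfl⟩

theorem pl_bd0 (h : P.Ok) (op : IsOpen (e.plO P D γ))
    (ct : ContinuousOn (e.plF P γ φ) (e.plO P D γ)) {K' : Set _} (hK : IsCompact K')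
    (s : K' ⊆ e.plO P D γ) (z : ∀ x ∈ e.plO P D γ, e.plF P γ φ x = 0 → x ∈ K') :
    (e.pl P {w | (w, 0) ∈ D} (fun w => γ (w, 0)) fun w => φ (w, 0)).Bd
      (e.pl P {w | (w, 1) ∈ D} (fun w => γ (w, 1)) fun w => φ (w, 1)) :=
  (PB.fam_ok (X := (XX (B × ℂ) k E).ls) (V := XX (C × ℝ) k E) (T := I) op
    (fun g z t u => ⟨u.1, (ok_act h g.toAdd _ _ u.2).1⟩) ct
    (fun g z t u => Prod.ext rfl (ok_act h g.toAdd _ _ u.2).2) (cp_of_sub (E := (C × ℝ) × V k E) hK s ct z)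
    fun z t u _ => mem_fr (h.fr _ u.2)).hb_sl

/-- **a proper family over the plane is a bordism** -/
theorem pl_bd (h : P.Ok) (hD : IsOpen D) (hγ : ContinuousOn γ D) (hφ : ContinuousOn φ D)
    (hA : IsClosed A) (s : A ⊆ D) (z : ∀ p ∈ D, φ p = 0 → p ∈ A)
    (bd : ∀ K, IsCompact K → ∃ M : ℝ, ∀ p ∈ A, γ p ∈ K → ‖p.1‖ ≤ M) :
    (e.pl P {w | (w, 0) ∈ D} (fun w => γ (w, 0)) fun w => φ (w, 0)).Bd
      (e.pl P {w | (w, 1) ∈ D} (fun w => γ (w, 1)) fun w => φ (w, 1)) :=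
  have ⟨a, b⟩ := e.pl_loc h hD hγ hφ
  have ⟨K', c, d, f⟩ := e.pl_cpt (φ := φ) h hA (hγ.mono s) bd
  e.pl_bd0 h a b c (fun _ u => ⟨⟨(d u).1.1, s (d u).1.2⟩, (d u).2⟩) fun x u v =>
    f x ⟨⟨u.1.1, z _ u.1.2 (congrArg (·.1.2) v)⟩, u.2⟩ (congrArg (·.1.1) v) (congrArg (·.2) v)

/-- `P` along `γ` is `P'` along `γ'` -/
def Ag (P : Pb (Y × T) k E) (P' : Pb (Y × T') k E) (t : T) (t' : T') : Prop :=
  ∀ x y, (((x, t), y) ∈ P.O ↔ ((x, t'), y) ∈ P'.O) ∧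
    (((x, t), y) ∈ P.O → P.h ((x, t), y) = P'.h ((x, t'), y))

theorem Ag.rfl' (P : Pb (Y × T) k E) (t : T) : Ag P P t t := fun _ _ => ⟨Iff.rfl, fun _ => rfl⟩

/-- **a family pasted from two proper families** -/
theorem pl_bd2 (h : P.Ok) {P' : Pb (Y × T') k E} (h' : P'.Ok) {D₁ D₂ A' : Set (ℂ × I)}
    {γ' : ℂ × I → T'} (u : D = D₁ ∪ D₂) (o₁ : IsOpen D₁) (o₂ : IsOpen D₂) (hγ : ContinuousOn γ D₁)
    (hγ' : ContinuousOn γ' D₂) (ag : ∀ p ∈ D₂, Ag P P' (γ p) (γ' p)) (hφ : Continuous φ)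
    (hA : IsClosed A) (hA' : IsClosed A') (s : A ⊆ D₁) (s' : A' ⊆ D₂)
    (z : ∀ p, φ p = 0 → p ∈ A ∪ A')
    (bd : ∀ K, IsCompact K → ∃ M : ℝ, ∀ p ∈ A, γ p ∈ K → ‖p.1‖ ≤ M)
    (bd' : ∀ K, IsCompact K → ∃ M : ℝ, ∀ p ∈ A', γ' p ∈ K → ‖p.1‖ ≤ M) :
    (e.pl P {w | (w, 0) ∈ D} (fun w => γ (w, 0)) fun w => φ (w, 0)).Bd
      (e.pl P {w | (w, 1) ∈ D} (fun w => γ (w, 1)) fun w => φ (w, 1)) := by
  subst u
  obtain ⟨a, b⟩ := e.pl_loc h o₁ hγ hφ.continuousOn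
  obtain ⟨a', b'⟩ := e.pl_loc h' o₂ hγ' hφ.continuousOn
  obtain ⟨K₁, c, d, f⟩ := e.pl_cpt (φ := φ) h hA (hγ.mono s) bd
  obtain ⟨K₂, c', d', f'⟩ := e.pl_cpt (φ := φ) h' hA' (hγ'.mono s') bd'
  have q : ∀ x ∈ e.plO P' D₂ γ', x ∈ e.plO P (D₁ ∪ D₂) γ ∧ e.plF P γ φ x = e.plF P' γ' φ x :=
    fun x u => have v := (ag _ u.1.2 _ _).1.2 u.2
      ⟨⟨⟨u.1.1, Or.inr u.1.2⟩, v⟩, Prod.ext rfl ((ag _ u.1.2 _ _).2 v)⟩
  have r : e.plO P (D₁ ∪ D₂) γ = e.plO P D₁ γ ∪ e.plO P' D₂ γ' :=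
    Set.ext fun x => ⟨fun u => u.1.2.imp (fun v => ⟨⟨u.1.1, v⟩, u.2⟩)
      fun v => ⟨⟨u.1.1, v⟩, (ag _ v _ _).1.1 u.2⟩,
      fun u => u.elim (fun v => ⟨⟨v.1.1, Or.inl v.1.2⟩, v.2⟩) fun v => (q x v).1⟩
  refine e.pl_bd0 h (r ▸ a.union a') (r ▸ fun x u => ?_) (c.union c') (r ▸ union_subset_union
    (fun _ u => ⟨⟨(d u).1.1, s (d u).1.2⟩, (d u).2⟩)
    fun _ u => ⟨⟨(d' u).1.1, s' (d' u).1.2⟩, (d' u).2⟩) fun x u v => ?_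
  · rcases u with u | u
    · exact (b.continuousAt (a.mem_nhds u)).continuousWithinAt
    · exact ((b'.congr fun y v => (q y v).2).continuousAt (a'.mem_nhds u)).continuousWithinAt
  · refine (z _ (congrArg (·.1.2) v)).imp (fun w => f x ⟨⟨u.1.1, w⟩, u.2⟩ (congrArg (·.1.1) v)
      (congrArg (·.2) v)) fun w => f' x ⟨⟨u.1.1, w⟩, (ag _ (s' w) _ _).1.1 u.2⟩
      (congrArg (·.1.1) v) (((ag _ (s' w) _ _).2 u.2).symm.trans (congrArg (·.2) v))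

/-- the part over `U` -/
def ov (U : Set ℂ) : Set (XX (B × ℂ) k E).W := {z : (B × ℂ) × V k E | z.1.2 ∈ U}

/-- **excision over the plane** -/
theorem pl_on {P' : Pb (Y × T') k E} {D D' U : Set ℂ} {γ : ℂ → T} {γ' : ℂ → T'} {φ φ' : ℂ → ℝ}
    (h : (e.pl P D γ φ).Fr) (h' : (e.pl P' D' γ' φ').Fr) (hU : IsOpen U)
    (ag : ∀ w ∈ U, w ∈ D ∧ w ∈ D' ∧ Ag P P' (γ w) (γ' w) ∧ φ w = φ' w)
    (z : ∀ w ∈ D', φ' w = 0 → w ∈ U) :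
    ((e.pl P D γ φ).on (ov U)).Bd (e.pl P' D' γ' φ') :=
  have l : ((e.pl P D γ φ).on (ov U)).Le (e.pl P' D' γ' φ') :=
    ⟨fun x u => ⟨⟨u.1.1.1, (ag _ u.2).2.1⟩, ((ag _ u.2).2.2.1 _ _).1.1 u.1.2⟩,
      fun x u => Prod.ext (Prod.ext rfl (ag _ u.2).2.2.2) (((ag _ u.2).2.2.1 _ _).2 u.1.2),
      fun x u => have v := z _ u.1.1.2 (congrArg (·.1.2) u.2)
        ⟨⟨⟨u.1.1.1, (ag _ v).1⟩, ((ag _ v).2.2.1 _ _).1.2 u.1.2⟩, v⟩⟩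
  l.hb (l.ok h' (h.op.inter (hU.preimage (f := fun z : (B × ℂ) × V k E => z.1.2) (by fun_prop)))
    fun g x u => ⟨h.inv g x u.1, u.2⟩) h'

theorem pl_z {D U : Set ℂ} {γ : ℂ → T} {φ : ℂ → ℝ} (z : ∀ w ∈ D, φ w = 0 → w ∈ U) :
    (e.pl P D γ φ).Z ⊆ ov U := fun x u => z _ u.1.1.2 (congrArg (·.1.2) u.2)

end Emb

end Crest.Agent.N218.In

end
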